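import Vale.Agent.P330.H933.Fld4
import Vale.Agent.Lib.PolyTime.Lists2

/-!
# Explicit fields: more lemmas

* the generator is not a root of a nonzero polynomial of small degree over the prime field;
* the parameter of the field as the logarithm of the length of a list.
-/

namespace Vale.Agent.P330.H933

open Polynomial
open Vale.Agent.Lib.PolyTime

theorem aeval_th_ne_zero {l : ℕ} {f : (ZMod 2)[X]} (hf : f ≠ 0) (hd : f.natDegree < eF l) :
    aeval (th l) f ≠ 0 := by
  intro h0
  have h1 : AdjoinRoot.mk (tri l) f = 0 := by
    rw [← h0]
    exact (AdjoinRoot.aeval_eq f).symm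
  rw [AdjoinRoot.mk_eq_zero] at h1
  have h2 := natDegree_le_of_dvd h1 hf
  rw [natDegree_tri] at h2
  unfold eF at hd
  omega

variable {α : Type*} [Enc α] {A : Set Word}

theorem length_filter_lt (m L : ℕ) (h : L ≤ m) :
    ((List.range m).filter fun j => decide (j < L)).length = L := by
  induction m with
  | zero =>
    have : L = 0 := by omega
    subst this
    rfl
  | succ m ih =>
    rw [List.range_succ, List.filter_append, List.length_append]
    rcases Nat.lt_or_ge m L with h1 | h1
    · have h2 : L = m + 1 := by omega
      subst h2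
      have h3 : (List.range m).filter (fun j => decide (j < m + 1)) = List.range m := by
        rw [List.filter_eq_self]
        intro j hj
        have := List.mem_range.1 hj
        simp only [decide_eq_true_eq]
        omega
      rw [h3]
      simp
    · rw [ih h1]
      simp [not_lt.2 h1]

theorem log_eq_length {b : ℕ} (hb : 1 < b) (m : ℕ) :
    Nat.log b m = ((List.range m).filter fun j => decide (b ^ (min j m + 1) ≤ m)).length := by
  rcases Nat.eq_zero_or_pos m with rfl | hm
  · simp
  rw [← length_filter_lt m (Nat.log b m) (Nat.log_le_self b m)]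
  congr 1
  refine List.filter_congr fun j hj => ?_
  rw [decide_eq_decide, min_eq_left (List.mem_range.1 hj).le, ← Nat.le_log_iff_pow_le hb hm.ne']
  exact Nat.lt_iff_add_one_le

/-- Logarithms of small numbers in polynomial time. -/
theorem PT.log {b : ℕ} (hb : 1 < b) {m : α → ℕ} (hm : PT A m) (hmb : PBd m) :
    PT A (fun a => Nat.log b (m a)) := by
  have hm' : PT A (fun p : α × ℕ => m p.1) := hm.comp PT.fst'
  have hmb' : PBd (fun p : α × ℕ => m p.1) := PBd.comp (b := m) hmb (PT.fst' (A := A))
  have h1 : PT A (fun p : α × ℕ => decide (b ^ (min p.2 (m p.1) + 1) ≤ m p.1)) :=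
    PT.le (PT.pow (PT.const b) (PT.add (PT.min PT.snd' hm') (PT.const 1))
      ((hmb'.mono fun p => min_le_right _ _).add (PBd.const 1))) hm'
  refine (PT.length (PT.filter (l := fun a => List.range (m a))
    (f := fun a j => decide (b ^ (min j (m a) + 1) ≤ m a)) (PT.range hm hmb) h1)).congr
    fun a => (log_eq_length hb _).symm

/-- The parameter of the field, given in unary as the length of a list. -/
theorem LPar.log {γ : Type*} [Enc γ] {u : α → List γ} (hu : PT A u) :
    LPar A (fun a => Nat.log 3 (u a).length) := by
  refine ⟨PT.log (by norm_num) hu.length (PBd.length hu), ?_⟩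
  refine ((PBd.length hu).add (PBd.const 1)).mono fun a => ?_
  rcases Nat.eq_zero_or_pos (u a).length with h | h
  · rw [h]; simp
  · exact (Nat.pow_log_le_self 3 h.ne').trans (Nat.le_succ _)

theorem log3_pow (l : ℕ) : Nat.log 3 (3 ^ l) = l := Nat.log_pow (by norm_num) l

end Vale.Agent.P330.H933
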