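import Vale.Agent.P330.H933.Fld2
import Vale.Agent.Lib.PolyTime.Bitwise
import Vale.Agent.Lib.PolyTime.NatArith2
import Vale.Agent.Lib.PolyTime.Lists3

/-!
# Explicit fields of characteristic two: polynomial time arithmetic

`FT A l f` says that the name of the element `f a` of the field `Fl (l a)` is computable in
polynomial time.
-/

namespace Vale.Agent.P330.H933

open Function
open Vale.Agent.Lib.PolyTime

/-! ### Powers and inverses on names -/

/-- One step of repeated squaring: exponent, base, accumulator. -/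
def pst (l : ℕ) (p : ℕ × ℕ × ℕ) : ℕ × ℕ × ℕ :=
  (p.1 / 2, kmul l p.2.1 p.2.1, if p.1 % 2 = 1 then kmul l p.2.2 p.2.1 else p.2.2)

/-- Powers on names. -/
def kpow (l a n : ℕ) : ℕ := ((pst l)^[esize n] (n, a, 1)).2.2

theorem one_lt_eF (l : ℕ) : 1 < 2 ^ eF l := Nat.one_lt_two_pow (eF_pos l).ne'

theorem pst_inv (l a n : ℕ) (ha : a < 2 ^ eF l) (j : ℕ) :
    ((pst l)^[j] (n, a, 1)).1 = n / 2 ^ j ∧ ((pst l)^[j] (n, a, 1)).2.1 < 2 ^ eF l ∧
      ((pst l)^[j] (n, a, 1)).2.2 < 2 ^ eF l ∧
      dec l ((pst l)^[j] (n, a, 1)).2.2 *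
        dec l ((pst l)^[j] (n, a, 1)).2.1 ^ (n / 2 ^ j) = dec l a ^ n := by
  induction j with
  | zero =>
    refine ⟨by simp, ha, one_lt_eF l, ?_⟩
    simp [dec_one]
  | succ j ih =>
    obtain ⟨h1, h2, h3, h4⟩ := ih
    rw [Function.iterate_succ_apply']
    set s := (pst l)^[j] (n, a, 1) with hs
    have h5 : n / 2 ^ j / 2 = n / 2 ^ (j + 1) := by
      rw [Nat.div_div_eq_div_mul, pow_succ]
    refine ⟨?_, ?_, ?_, ?_⟩
    · unfold pst
      simp only
      rw [h1, h5]
    · unfold pst
      exact kmul_lt l h2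
    · unfold pst
      simp only
      split_ifs
      · exact kmul_lt l h3
      · exact h3
    · unfold pst
      simp only
      rw [dec_kmul l h2 h2, h1, ← h5, ← h4]
      generalize n / 2 ^ j = m
      split_ifs with h7
      · rw [dec_kmul l h3 h2]
        obtain ⟨r, rfl⟩ : ∃ r, m = 2 * r + 1 := ⟨m / 2, by omega⟩
        have h8 : (2 * r + 1) / 2 = r := by omega
        rw [h8, pow_succ, pow_mul]
        ring
      · obtain ⟨r, rfl⟩ : ∃ r, m = 2 * r := ⟨m / 2, by omega⟩
        have h8 : 2 * r / 2 = r := by omega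
        rw [h8, pow_mul]
        ring

theorem kpow_lt {l a : ℕ} (ha : a < 2 ^ eF l) (n : ℕ) : kpow l a n < 2 ^ eF l :=
  (pst_inv l a n ha _).2.2.1

theorem dec_kpow {l a : ℕ} (ha : a < 2 ^ eF l) (n : ℕ) : dec l (kpow l a n) = dec l a ^ n := by
  have h := (pst_inv l a n ha (esize n)).2.2.2
  rw [Nat.div_eq_of_lt (lt_two_pow_esize n), pow_zero, mul_one] at h
  exact h

theorem cod_pow {l : ℕ} (x : Fl l) (n : ℕ) : cod l (x ^ n) = kpow l (cod l x) n := by
  rw [cod_eq_iff (kpow_lt (cod_lt x) n), dec_kpow (cod_lt x), dec_cod]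

theorem inv_eq_pow {l : ℕ} (x : Fl l) : x⁻¹ = x ^ (2 ^ eF l - 2) := by
  have h0 := one_lt_eF l
  have h1 : 2 ≤ eF l := by
    unfold eF
    have : 0 < 3 ^ l := by positivity
    omega
  have h2 : 2 ^ 2 ≤ 2 ^ eF l := Nat.pow_le_pow_right (by norm_num) h1
  by_cases hx : x = 0
  · rw [hx, inv_zero, zero_pow (by omega)]
  · have h3 : x ^ (2 ^ eF l - 1) = 1 := by
      have := FiniteField.pow_card_sub_one_eq_one x hx
      rwa [card_Fl] at this
    have h4 : x ^ (2 ^ eF l - 2) * x = 1 := by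
      rw [← pow_succ, ← h3]
      congr 1
      omega
    exact (eq_inv_of_mul_eq_one_left h4).symm

/-- Inverses on names. -/
def kinv (l a : ℕ) : ℕ := kpow l a (2 ^ eF l - 2)

theorem cod_inv {l : ℕ} (x : Fl l) : cod l x⁻¹ = kinv l (cod l x) := by
  rw [inv_eq_pow, cod_pow]; rfl

/-! ### Polynomial time on names -/

variable {α : Type*} [Enc α] {A : Set Word}

theorem PT.ifNat {c : α → Bool} {f g : α → ℕ} (hc : PT A c) (hf : PT A f) (hg : PT A g) :
    PT A (fun a => if c a = true then f a else g a) := by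
  refine (PT.cond hc hf hg).congr fun a => ?_
  cases c a <;> rfl

theorem PT.eF {l : α → ℕ} (hl : PT A l) (hb : PBd (fun a => 3 ^ l a)) :
    PT A (fun a => eF (l a)) := by
  have h1 : PBd l := hb.mono fun a => (Nat.lt_pow_self (by norm_num)).le
  unfold H933.eF
  exact PT.mul (PT.const 2) (PT.pow (PT.const 3) hl h1)

theorem PBd.eF {l : α → ℕ} (hb : PBd (fun a => 3 ^ l a)) : PBd (fun a => eF (l a)) := by
  unfold H933.eF
  exact (PBd.const 2).mul hb

theorem PT.tw {l : α → ℕ} (hl : PT A l) (hb : PBd (fun a => 3 ^ l a)) :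
    PT A (fun a => tw (l a)) := by
  have h1 : PBd l := hb.mono fun a => (Nat.lt_pow_self (by norm_num)).le
  unfold H933.tw
  exact PT.natXor (PT.pow (PT.const 2) (PT.eF hl hb) (PBd.eF hb))
    (PT.natXor (PT.pow (PT.const 2) (PT.pow (PT.const 3) hl h1) hb) (PT.const 1))

theorem tw_lt (l : ℕ) : tw l < 2 ^ (eF l + 1) := by
  unfold tw
  have h1 := pow_lt_eF l
  refine Nat.xor_lt_two_pow (Nat.pow_lt_pow_right (by norm_num) (by omega))
    (Nat.xor_lt_two_pow (Nat.pow_lt_pow_right (by norm_num) (by omega)) ?_)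
  exact Nat.one_lt_two_pow (by omega)

theorem PT.red {l f : α → ℕ} (hl : PT A l) (hb : PBd (fun a => 3 ^ l a)) (hf : PT A f) :
    PT A (fun a => red (l a) (f a)) := by
  unfold H933.red
  exact PT.ite (PT.le (PT.pow (PT.const 2) (PT.eF hl hb) (PBd.eF hb)) hf)
    (PT.natXor hf (PT.tw hl hb)) hf

/-- A crude bound for the states of the multiplication, valid for all arguments. -/
theorem mst_bound (l a b : ℕ) (j : ℕ) :
    ((mst l)^[j] (a, b, 0)).1 < 2 ^ (esize a + eF l + 1 + j) ∧
      ((mst l)^[j] (a, b, 0)).2.1 ≤ b ∧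
      ((mst l)^[j] (a, b, 0)).2.2 < 2 ^ (esize a + eF l + 1 + j) := by
  induction j with
  | zero =>
    refine ⟨lt_of_lt_of_le (lt_two_pow_esize a) (Nat.pow_le_pow_right (by norm_num) (by omega)),
      le_rfl, by simp⟩
  | succ j ih =>
    obtain ⟨h1, h2, h3⟩ := ih
    rw [Function.iterate_succ_apply']
    set s := (mst l)^[j] (a, b, 0) with hs
    have h4 : 2 ^ (esize a + eF l + 1 + (j + 1)) = 2 * 2 ^ (esize a + eF l + 1 + j) := by
      rw [← add_assoc, pow_succ]; ring
    have h5 : tw l < 2 ^ (esize a + eF l + 1 + (j + 1)) :=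
      lt_of_lt_of_le (tw_lt l) (Nat.pow_le_pow_right (by norm_num) (by omega))
    refine ⟨?_, ?_, ?_⟩
    · unfold mst red
      simp only
      have h6 : 2 * s.1 < 2 ^ (esize a + eF l + 1 + (j + 1)) := by omega
      split_ifs
      · exact Nat.xor_lt_two_pow h6 h5
      · exact h6
    · unfold mst
      simp only
      omega
    · unfold mst
      simp only
      split_ifs
      · exact Nat.xor_lt_two_pow (by omega) (by omega)
      · omega

theorem PT.kmul {l f g : α → ℕ} (hl : PT A l) (hb : PBd (fun a => 3 ^ l a)) (hf : PT A f)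
    (hg : PT A g) : PT A (fun a => kmul (l a) (f a) (g a)) := by
  have hst : PT A (fun q : α × (ℕ × ℕ × ℕ) => mst (l q.1) q.2) := by
    have hl' : PT A (fun q : α × (ℕ × ℕ × ℕ) => l q.1) := hl.comp PT.fst'
    have hb' : PBd (fun q : α × (ℕ × ℕ × ℕ) => 3 ^ l q.1) :=
      PBd.comp (b := fun a => 3 ^ l a) hb (PT.fst' (A := A))
    unfold mst
    exact (PT.red hl' hb' (PT.double PT.snd'.fst)).pair ((PT.half PT.snd'.snd.fst).pair
      (PT.ite (PT.odd PT.snd'.snd.fst) (PT.natXor PT.snd'.snd.snd PT.snd'.fst) PT.snd'.snd.snd))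
  have he := PBd.eF hb
  have hB : PBd (fun a => 2 * (esize (f a) + H933.eF (l a) + 1 + H933.eF (l a)) +
      (2 * esize (g a) + (esize (f a) + H933.eF (l a) + 1 + H933.eF (l a)) + 1) + 1) := by
    have h1 := hf.pbd
    have h2 := hg.pbd
    fun_prop
  unfold H933.kmul
  refine (PT.iterate' (step := fun a => mst (l a)) (PT.eF hl hb) (PBd.eF hb)
    (hf.pair (hg.pair (PT.const 0))) hst hB fun a j hj => ?_).snd.snd
  obtain ⟨h1, h2, h3⟩ := mst_bound (l a) (f a) (g a) j
  set s := (mst (l a))^[j] (f a, g a, 0) with hs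
  have h4 := esize_nat_le h1
  have h5 := esize_nat_le h3
  have h6 := esize_nat_mono h2
  have h7 : esize s = 2 * esize s.1 + (2 * esize s.2.1 + esize s.2.2 + 1) + 1 := by
    rw [← esize_pair, ← esize_pair]
  rw [h7]
  omega

theorem esize_kmul_le (l a b : ℕ) : esize (kmul l a b) ≤ esize a + 2 * eF l + 1 := by
  have h := esize_nat_le (mst_bound l a b (eF l)).2.2
  unfold kmul
  omega

theorem pst_bound (l a n : ℕ) (j : ℕ) :
    ((pst l)^[j] (n, a, 1)).1 ≤ n ∧
      esize ((pst l)^[j] (n, a, 1)).2.1 ≤ esize a + j * (2 * eF l + 1) ∧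
      esize ((pst l)^[j] (n, a, 1)).2.2 ≤ 1 + j * (2 * eF l + 1) := by
  induction j with
  | zero => exact ⟨le_rfl, by simp, by simpa using esize_nat_le_self 1⟩
  | succ j ih =>
    obtain ⟨h1, h2, h3⟩ := ih
    rw [Function.iterate_succ_apply']
    set s := (pst l)^[j] (n, a, 1) with hs
    have h4 := esize_kmul_le l s.2.1 s.2.1
    have h5 := esize_kmul_le l s.2.2 s.2.1
    have h6 : (j + 1) * (2 * eF l + 1) = j * (2 * eF l + 1) + (2 * eF l + 1) := by ring
    refine ⟨?_, ?_, ?_⟩
    · unfold pst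
      simp only
      omega
    · unfold pst
      simp only
      omega
    · unfold pst
      simp only
      split_ifs <;> omega

theorem PT.kpow {l f g : α → ℕ} (hl : PT A l) (hb : PBd (fun a => 3 ^ l a)) (hf : PT A f)
    (hg : PT A g) : PT A (fun a => kpow (l a) (f a) (g a)) := by
  have hst : PT A (fun q : α × (ℕ × ℕ × ℕ) => pst (l q.1) q.2) := by
    have hl' : PT A (fun q : α × (ℕ × ℕ × ℕ) => l q.1) := hl.comp PT.fst'
    have hb' : PBd (fun q : α × (ℕ × ℕ × ℕ) => 3 ^ l q.1) :=
      PBd.comp (b := fun a => 3 ^ l a) hb (PT.fst' (A := A))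
    unfold pst
    exact (PT.half PT.snd'.fst).pair ((PT.kmul hl' hb' PT.snd'.snd.fst PT.snd'.snd.fst).pair
      (PT.ite (PT.odd PT.snd'.fst) (PT.kmul hl' hb' PT.snd'.snd.snd PT.snd'.snd.fst)
        PT.snd'.snd.snd))
  have he := PBd.eF hb
  have hB : PBd (fun a => 2 * esize (g a) +
      (2 * (esize (f a) + esize (g a) * (2 * H933.eF (l a) + 1)) +
        (1 + esize (g a) * (2 * H933.eF (l a) + 1)) + 1) + 1) := by
    have h1 := hf.pbd
    have h2 := hg.pbd
    fun_prop
  unfold H933.kpow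
  refine (PT.iterate_esize' (step := fun a => pst (l a)) hg (hg.pair (hf.pair (PT.const 1)))
    hst hB fun a j hj => ?_).snd.snd
  obtain ⟨h1, h2, h3⟩ := pst_bound (l a) (f a) (g a) j
  set s := (pst (l a))^[j] (g a, f a, 1) with hs
  have h6 := esize_nat_mono h1
  have h7 : esize s = 2 * esize s.1 + (2 * esize s.2.1 + esize s.2.2 + 1) + 1 := by
    rw [← esize_pair, ← esize_pair]
  have h8 : j * (2 * H933.eF (l a) + 1) ≤ esize (g a) * (2 * H933.eF (l a) + 1) :=
    Nat.mul_le_mul_right _ hj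
  rw [h7]
  omega

theorem PT.kinv {l f : α → ℕ} (hl : PT A l) (hb : PBd (fun a => 3 ^ l a)) (hf : PT A f) :
    PT A (fun a => kinv (l a) (f a)) := by
  unfold H933.kinv
  exact PT.kpow hl hb hf (PT.sub (PT.pow (PT.const 2) (PT.eF hl hb) (PBd.eF hb)) (PT.const 2))

/-! ### Polynomial time on elements -/

/-- The name of the element `f a` of `Fl (l a)` is computable in polynomial time. -/
def FT (A : Set Word) (l : α → ℕ) (f : ∀ a, Fl (l a)) : Prop := PT A (fun a => cod (l a) (f a))

/-- Standing assumption on the parameter `l`. -/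
structure LPar (A : Set Word) (l : α → ℕ) : Prop where
  pt : PT A l
  bd : PBd (fun a => 3 ^ l a)

theorem LPar.comp {β : Type*} [Enc β] {l : α → ℕ} (h : LPar A l) {g : β → α} (hg : PT A g) :
    LPar A (fun b => l (g b)) :=
  ⟨h.pt.comp hg, PBd.comp (b := fun a => 3 ^ l a) h.bd hg⟩

theorem LPar.eF {l : α → ℕ} (h : LPar A l) : PT A (fun a => eF (l a)) := PT.eF h.pt h.bd

theorem LPar.eFbd {l : α → ℕ} (h : LPar A l) : PBd (fun a => H933.eF (l a)) := PBd.eF h.bd

namespace FT

variable {l : α → ℕ} {f g : ∀ a, Fl (l a)}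

theorem congr (hf : FT A l f) (h : ∀ a, f a = g a) : FT A l g := by
  have : f = g := funext h
  rwa [this] at hf

theorem comp {β : Type*} [Enc β] (hf : FT A l f) {u : β → α} (hu : PT A u) :
    FT A (fun b => l (u b)) (fun b => f (u b)) :=
  PT.comp (g := fun a => cod (l a) (f a)) hf hu

theorem zero : FT A l (fun _ => 0) := (PT.const 0).congr fun _ => cod_zero.symm

theorem one : FT A l (fun _ => 1) := (PT.const 1).congr fun _ => cod_one.symm

theorem add (hf : FT A l f) (hg : FT A l g) : FT A l (fun a => f a + g a) :=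
  (PT.natXor hf hg).congr fun a => (cod_add _ _).symm

theorem neg (hf : FT A l f) : FT A l (fun a => -f a) :=
  hf.congr fun a => (CharTwo.neg_eq (f a)).symm

theorem sub (hf : FT A l f) (hg : FT A l g) : FT A l (fun a => f a - g a) :=
  (hf.add hg).congr fun a => (CharTwo.sub_eq_add _ _).symm

theorem mul (hl : LPar A l) (hf : FT A l f) (hg : FT A l g) : FT A l (fun a => f a * g a) :=
  (PT.kmul hl.pt hl.bd hf hg).congr fun a => (cod_mul _ _).symm

theorem pow (hl : LPar A l) (hf : FT A l f) {n : α → ℕ} (hn : PT A n) :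
    FT A l (fun a => f a ^ n a) :=
  (PT.kpow hl.pt hl.bd hf hn).congr fun a => (cod_pow _ _).symm

theorem inv (hl : LPar A l) (hf : FT A l f) : FT A l (fun a => (f a)⁻¹) :=
  (PT.kinv hl.pt hl.bd hf).congr fun a => (cod_inv _).symm

theorem div (hl : LPar A l) (hf : FT A l f) (hg : FT A l g) : FT A l (fun a => f a / g a) :=
  (hf.mul hl (hg.inv hl)).congr fun a => (div_eq_mul_inv _ _).symm

/-- The generator. -/
theorem th (hl : LPar A l) : FT A l (fun a => th (l a)) := by
  refine (PT.const 2).congr fun a => ?_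
  have h1 : 1 < H933.eF (l a) := by
    unfold H933.eF
    have : 0 < 3 ^ l a := by positivity
    omega
  have := cod_th_pow (l := l a) h1
  rw [pow_one] at this
  exact this.symm

/-- Elements given by their names. -/
theorem dec {n : α → ℕ} (hn : PT A n) (h : ∀ a, n a < 2 ^ H933.eF (l a)) :
    FT A l (fun a => dec (l a) (n a)) :=
  hn.congr fun a => (cod_dec (h a)).symm

theorem ite {p : α → Prop} [DecidablePred p] (hp : PT A (fun a => decide (p a)))
    (hf : FT A l f) (hg : FT A l g) : FT A l (fun a => if p a then f a else g a) :=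
  (PT.ite hp hf hg).congr fun a => by beta_reduce; split_ifs <;> rfl

theorem eq [∀ a, Decidable (f a = g a)] (hf : FT A l f) (hg : FT A l g) :
    PT A (fun a => decide (f a = g a)) := by
  refine (PT.eqNat hf hg).congr fun a => ?_
  rw [decide_eq_decide]
  exact ⟨fun h => cod_inj h, fun h => by rw [h]⟩

/-- Finite sums. -/
theorem sum_range (hl : LPar A l) {n : α → ℕ} (hn : PT A n) (hnb : PBd n)
    {F : ∀ a, ℕ → Fl (l a)} (hF : FT A (fun p : α × ℕ => l p.1) (fun p => F p.1 p.2)) :
    FT A l (fun a => ∑ i ∈ Finset.range (n a), F a i) := by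
  have key : ∀ a j, Nat.rec (motive := fun _ => ℕ) 0 (fun i s => s ^^^ cod (l a) (F a i)) j =
      cod (l a) (∑ i ∈ Finset.range j, F a i) := by
    intro a j
    induction j with
    | zero => simp [cod_zero]
    | succ j ih =>
      rw [Finset.sum_range_succ, cod_add, ← ih]
  have h0 : PT A (fun p : α × ℕ => cod (l p.1) (F p.1 p.2)) := hF
  have h1 : PT A (fun p : α × ℕ × ℕ => cod (l p.1) (F p.1 p.2.1)) :=
    PT.comp (g := fun p : α × ℕ => cod (l p.1) (F p.1 p.2)) (f := fun p : α × ℕ × ℕ => (p.1, p.2.1))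
      h0 (PT.fst'.pair PT.snd'.fst)
  have h2 : PT A (fun p : α × ℕ × ℕ => p.2.2 ^^^ cod (l p.1) (F p.1 p.2.1)) :=
    PT.natXor PT.snd'.snd h1
  have h3 : PT A (fun a => Nat.rec (motive := fun _ => ℕ) 0
      (fun i s => s ^^^ cod (l a) (F a i)) (n a)) := by
    refine PT.natRec (init := fun _ => 0) (step := fun a i s => s ^^^ cod (l a) (F a i)) hn hnb
      (PT.const 0) h2 hl.eFbd fun a j _ => ?_
    rw [key]
    exact esize_nat_le (cod_lt _)
  exact h3.congr fun a => key a _

/-- Finite products. -/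
theorem prod_range (hl : LPar A l) {n : α → ℕ} (hn : PT A n) (hnb : PBd n)
    {F : ∀ a, ℕ → Fl (l a)} (hF : FT A (fun p : α × ℕ => l p.1) (fun p => F p.1 p.2)) :
    FT A l (fun a => ∏ i ∈ Finset.range (n a), F a i) := by
  have key : ∀ a j, Nat.rec (motive := fun _ => ℕ) 1
      (fun i s => H933.kmul (l a) s (cod (l a) (F a i))) j =
      cod (l a) (∏ i ∈ Finset.range j, F a i) := by
    intro a j
    induction j with
    | zero => simp [cod_one]
    | succ j ih =>
      rw [Finset.prod_range_succ, cod_mul, ← ih]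
  have h0 : PT A (fun p : α × ℕ => cod (l p.1) (F p.1 p.2)) := hF
  have h1 : PT A (fun p : α × ℕ × ℕ => cod (l p.1) (F p.1 p.2.1)) :=
    PT.comp (g := fun p : α × ℕ => cod (l p.1) (F p.1 p.2)) (f := fun p : α × ℕ × ℕ => (p.1, p.2.1))
      h0 (PT.fst'.pair PT.snd'.fst)
  have hl' : LPar A (fun p : α × ℕ × ℕ => l p.1) := hl.comp PT.fst'
  have h2 : PT A (fun p : α × ℕ × ℕ => H933.kmul (l p.1) p.2.2 (cod (l p.1) (F p.1 p.2.1))) :=
    PT.kmul hl'.pt hl'.bd PT.snd'.snd h1
  have h3 : PT A (fun a => Nat.rec (motive := fun _ => ℕ) 1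
      (fun i s => H933.kmul (l a) s (cod (l a) (F a i))) (n a)) := by
    refine PT.natRec (init := fun _ => 1) (step := fun a i s =>
      H933.kmul (l a) s (cod (l a) (F a i))) hn hnb (PT.const 1) h2 hl.eFbd fun a j _ => ?_
    rw [key]
    exact esize_nat_le (cod_lt _)
  exact h3.congr fun a => key a _

end FT

/-! ### Linear functionals over the field with two elements -/

/-- The coefficient of `th l ^ i`, as a Boolean. -/
noncomputable def bitF (l i : ℕ) (x : Fl l) : Bool := (cod l x).testBit i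

theorem bitF_add (l i : ℕ) (x y : Fl l) : bitF l i (x + y) = (bitF l i x ^^ bitF l i y) := by
  unfold bitF; rw [cod_add, Nat.testBit_xor]

theorem bitF_zero (l i : ℕ) : bitF l i 0 = false := by
  unfold bitF; rw [cod_zero, Nat.zero_testBit]

theorem bitF_th_pow (l i : ℕ) {k : ℕ} (h : k < eF l) : bitF l i (th l ^ k) = decide (k = i) := by
  unfold bitF; rw [cod_th_pow h, Nat.testBit_two_pow]

theorem bitF_ext {l : ℕ} {x y : Fl l} (h : ∀ i < eF l, bitF l i x = bitF l i y) : x = y := by
  apply cod_inj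
  refine Nat.eq_of_testBit_eq fun i => ?_
  rcases lt_or_ge i (eF l) with hi | hi
  · exact h i hi
  · rw [Nat.testBit_lt_two_pow (lt_of_lt_of_le (cod_lt x) (Nat.pow_le_pow_right (by norm_num) hi)),
      Nat.testBit_lt_two_pow (lt_of_lt_of_le (cod_lt y) (Nat.pow_le_pow_right (by norm_num) hi))]

/-- Every element is the sum of the powers of the generator at its bits. -/
theorem dec_eq_sum (l : ℕ) {n : ℕ} (e : ℕ) (h : n < 2 ^ e) :
    dec l n = ∑ i ∈ Finset.range e, if n.testBit i then th l ^ i else 0 := by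
  induction e generalizing n with
  | zero =>
    have : n = 0 := by omega
    subst this
    simp [dec_zero]
  | succ e ih =>
    rw [Finset.sum_range_succ']
    have h1 : n / 2 < 2 ^ e := by rw [pow_succ] at h; omega
    rw [dec_half, ih h1, Finset.mul_sum, add_comm]
    congr 1
    · refine Finset.sum_congr rfl fun i _ => ?_
      rw [Nat.testBit_succ]
      split_ifs
      · rw [pow_succ]; ring
      · simp
    · by_cases h2 : n % 2 = 1
      · simp [h2, Nat.testBit_zero]
      · simp [h2, Nat.testBit_zero]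

theorem eq_sum_bitF {l : ℕ} (x : Fl l) :
    x = ∑ i ∈ Finset.range (eF l), if bitF l i x then th l ^ i else 0 := by
  conv_lhs => rw [← dec_cod x]
  exact dec_eq_sum l (eF l) (cod_lt x)

theorem PT.bitF {α : Type*} [Enc α] {A : Set Word} {l : α → ℕ} {f : ∀ a, Fl (l a)}
    (hf : FT A l f) {i : α → ℕ} (hi : PT A i) : PT A (fun a => bitF (l a) (i a) (f a)) :=
  PT.testBit hf hi

end Vale.Agent.P330.H933
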