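import Vale.Agent.P330.H933.Mat
import Vale.Agent.P330.W.H604.Site
import Vale.Agent.P330.W.H624.Good

/-!
# The words `E u` in polynomial time

The word `E u` with the content `u` is the unique solution of a square system of linear equations
(`Phi` of `H624`); it is computed by inverting the matrix of the system.
-/

namespace Vale.Agent.P330.H933

open Vale.Agent.Lib.PolyTime Vale.Agent.P330.H155 Vale.Agent.P330.H604
open Vale.Agent.P330.W.H624 Vale.Agent.P330.W.H972

/-! ### Sums over a fixed finite set -/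

theorem FT.sum_finset {α : Type*} [Enc α] {A : Set Word} {l : α → ℕ} {ι : Type*} (s : Finset ι)
    {F : ∀ a, ι → Fl (l a)} (hF : ∀ i ∈ s, FT A l (fun a => F a i)) :
    FT A l (fun a => ∑ i ∈ s, F a i) := by
  classical
  induction s using Finset.induction_on with
  | empty => exact FT.zero.congr fun a => by simp
  | insert i s hi ih =>
    refine (FT.add (hF i (Finset.mem_insert_self i s))
      (ih fun j hj => hF j (Finset.mem_insert_of_mem hj))).congr fun a => ?_
    rw [Finset.sum_insert hi]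

/-! ### The matrix of the system -/

section coef

variable {J Γ B F : Type*} [AddCommGroup J] [Group Γ] [DistribMulAction Γ J]
  [Fintype B] [DecidableEq B] [Field F] [Algebra (ZMod 2) F]

/-- `x` if `h' = h`, otherwise `0`. -/
noncomputable def ifEq {X F : Type*} [Zero F] (h' h : X) (x : F) : F :=
  @ite F (h' = h) (Classical.propDecidable _) x 0

theorem ifEq_pos {X F : Type*} [Zero F] {h' h : X} (e : h' = h) (x : F) : ifEq h' h x = x :=
  @if_pos _ (Classical.propDecidable _) e _ _ _

theorem ifEq_neg {X F : Type*} [Zero F] {h' h : X} (e : ¬ h' = h) (x : F) : ifEq h' h x = 0 :=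
  @if_neg _ (Classical.propDecidable _) e _ _ _

/-- The coefficient of the unknown `(h', c')` in the equation `(h, c)`. -/
noncomputable def coef (S : Cd J Γ B F) (P0 P1 : Submodule (ZMod 2) (B → ZMod 2))
    (B1 B2 : Finset B) (eps : F) (h : J × Γ) (c : B) (h' : J × Γ) (c' : B) : F :=
  if c ∈ B1 then ifEq h' h (algebraMap (ZMod 2) F (dualCk P0 B1 c c'))
  else if c ∈ B2 then ifEq h' (S.nb c' h)
    (algebraMap (ZMod 2) F (dualCk P1 B2 c c') * (if c' ∈ B1 then eps else 1))
  else ifEq h' h (if c' = c then 1 else 0)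

/-- The right hand side of the system. -/
noncomputable def rhs (B1 B2 : Finset B) (u : J → F) (h : J × Γ) (c : B) : F :=
  if c ∈ B1 then 0 else if c ∈ B2 then 0 else u h.1

variable [Fintype J] [Fintype Γ]

theorem sum_coef (bet : B → J) (η : B → Γ) (P0 P1 : Submodule (ZMod 2) (B → ZMod 2))
    (B1 B2 : Finset B) (eps : F) (b0 : B) (X : J × Γ → B → F) (h : J × Γ) (c : B) :
    ∑ h' : J × Γ, ∑ c' : B,
        coef (cdOf bet η P0 P1 B1 B2 eps b0) P0 P1 B1 B2 eps h c h' c' * X h' c' =
      if c ∈ B1 then ∑ j, dualCk P0 B1 c j • X h j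
      else if c ∈ B2 then ∑ j, dualCk P1 B2 c j •
        ((if j ∈ B1 then eps else 1) * X ((cdOf bet η P0 P1 B1 B2 eps b0).nb j h) j)
      else X h c := by
  unfold coef
  split_ifs with h1 h2
  · rw [Finset.sum_eq_single h]
    · refine Finset.sum_congr rfl fun j _ => ?_
      rw [ifEq_pos rfl, Algebra.smul_def]
    · intro h' _ hne
      refine Finset.sum_eq_zero fun j _ => ?_
      rw [ifEq_neg hne, zero_mul]
    · intro hn
      exact absurd (Finset.mem_univ _) hn
  · rw [Finset.sum_comm]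
    refine Finset.sum_congr rfl fun j _ => ?_
    rw [Finset.sum_eq_single ((cdOf bet η P0 P1 B1 B2 eps b0).nb j h)]
    · rw [ifEq_pos rfl, Algebra.smul_def, mul_assoc]
    · intro h' _ hne
      rw [ifEq_neg hne, zero_mul]
    · intro hn
      exact absurd (Finset.mem_univ _) hn
  · rw [Finset.sum_eq_single h]
    · rw [Finset.sum_eq_single c]
      · rw [ifEq_pos rfl, if_pos rfl, one_mul]
      · intro c' _ hne
        rw [ifEq_pos rfl, if_neg hne, zero_mul]
      · intro hn
        exact absurd (Finset.mem_univ _) hn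
    · intro h' _ hne
      refine Finset.sum_eq_zero fun j _ => ?_
      rw [ifEq_neg hne, zero_mul]
    · intro hn
      exact absurd (Finset.mem_univ _) hn

end coef

/-! ### Solving a system over sites and labels -/

section solve

variable {J Γ B F : Type*} [AddCommGroup J] [Group Γ] [DistribMulAction Γ J]
  [Fintype B] [DecidableEq B] [Field F] [Algebra (ZMod 2) F]
  {bet : B → J} {η : B → Γ} {P0 P1 : Submodule (ZMod 2) (B → ZMod 2)}
    {B1 B2 : Finset B} {eps : F} {b0 : B}

theorem checks_E (hS : (cdOf bet η P0 P1 B1 B2 eps b0).Good) (u : J → F) (h : J × Γ) (c : B) :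
    (if c ∈ B1 then ∑ j, dualCk P0 B1 c j • (cdOf bet η P0 P1 B1 B2 eps b0).E u h j
      else if c ∈ B2 then ∑ j, dualCk P1 B2 c j •
        ((if j ∈ B1 then eps else 1) * (cdOf bet η P0 P1 B1 B2 eps b0).E u
          ((cdOf bet η P0 P1 B1 B2 eps b0).nb j h) j)
      else (cdOf bet η P0 P1 B1 B2 eps b0).E u h c) = rhs B1 B2 u h c := by
  unfold rhs
  have hM := Cd.E_isM hS u
  split_ifs with h1 h2
  · exact hM.1 h _ (dualCk_mem c)
  · exact hM.2 h _ (dualCk_mem c)
  · exact Cd.E_info hS u h ⟨h1, h2⟩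

theorem eq_zero_of_checks (hS : (cdOf bet η P0 P1 B1 B2 eps b0).Good)
    (hi1 : IsInfo P0 B1) (hc1 : B1.card = Module.finrank (ZMod 2) P0)
    (hi2 : IsInfo P1 B2) (hc2 : B2.card = Module.finrank (ZMod 2) P1) (hd : Disjoint B1 B2)
    {X : J × Γ → B → F}
    (hX : ∀ h c, (if c ∈ B1 then ∑ j, dualCk P0 B1 c j • X h j
      else if c ∈ B2 then ∑ j, dualCk P1 B2 c j •
        ((if j ∈ B1 then eps else 1) * X ((cdOf bet η P0 P1 B1 B2 eps b0).nb j h) j)
      else X h c) = 0) : X = 0 := by
  refine hS.uniq X ⟨fun h => ?_, fun h => ?_⟩ fun h b hb => ?_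
  · change X h ∈ Vale.Agent.P330.W.Wd P0 F
    rw [mem_Wd_iff_dual hi1 hc1]
    intro b hb
    have := hX h b
    rwa [if_pos hb] at this
  · change (fun b => (if b ∈ B1 then eps else 1) *
      X ((cdOf bet η P0 P1 B1 B2 eps b0).nb b h) b) ∈ Vale.Agent.P330.W.Wd P1 F
    rw [mem_Wd_iff_dual hi2 hc2]
    intro b hb
    have := hX h b
    rwa [if_neg (Finset.disjoint_right.1 hd hb), if_pos hb] at this
  · have := hX h b
    rwa [if_neg hb.1, if_neg hb.2] at this

end solve

/-! ### Labels and unknowns as numbers -/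

section lab

variable {B : Type} [Fintype B] [Nonempty B]

/-- The label of an unknown. -/
noncomputable def lab (B : Type) [Fintype B] [Nonempty B] (n : ℕ) : B :=
  (Fintype.equivFin B).symm ⟨n % Fintype.card B, Nat.mod_lt _ Fintype.card_pos⟩

theorem lab_eq_iff (n : ℕ) (b : B) :
    lab B n = b ↔ n % Fintype.card B = (Fintype.equivFin B b : ℕ) := by
  unfold lab
  rw [Equiv.symm_apply_eq]
  exact ⟨fun h => congrArg Fin.val h, fun h => Fin.ext h⟩

/-- The number of the unknown with site number `s` and label `b`. -/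
noncomputable def unk (s : ℕ) (b : B) : ℕ := (Fintype.equivFin B b : ℕ) + Fintype.card B * s

theorem unk_div (s : ℕ) (b : B) : unk s b / Fintype.card B = s := by
  unfold unk
  rw [Nat.add_mul_div_left _ _ Fintype.card_pos, Nat.div_eq_of_lt (Fintype.equivFin B b).2,
    zero_add]

theorem lab_unk (s : ℕ) (b : B) : lab B (unk s b) = b := by
  rw [lab_eq_iff]
  unfold unk
  rw [Nat.add_mul_mod_self_left, Nat.mod_eq_of_lt (Fintype.equivFin B b).2]

theorem unk_lt {s n : ℕ} (h : s < n) (b : B) : unk s b < n * Fintype.card B := by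
  unfold unk
  have h1 := (Fintype.equivFin B b).2
  calc (Fintype.equivFin B b : ℕ) + Fintype.card B * s
      < Fintype.card B + Fintype.card B * s := by omega
    _ = (s + 1) * Fintype.card B := by ring
    _ ≤ n * Fintype.card B := Nat.mul_le_mul_right _ h

theorem div_lt_of_unk {i n : ℕ} (h : i < n * Fintype.card B) : i / Fintype.card B < n :=
  Nat.div_lt_of_lt_mul (by rwa [mul_comm] at h)

end lab

/-! ### The table -/

section table

variable {A : Set Word} {α : Type} [Enc α] {l : α → ℕ} {J : α → Type}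
  [∀ a, AddCommGroup (J a)] [∀ a, DistribMulAction (SL3 (l a)) (J a)] [∀ a, Fintype (J a)]
  {N : JNum A l J} {B : Type} [Fintype B] [DecidableEq B] [Nonempty B]

/-- Summation over the unknowns. -/
theorem sum_unk {M : Type*} [AddCommMonoid M] (a : α) (f : J a × SL3 (l a) → B → M) :
    ∑ i : Fin (N.sc a * Fintype.card B), f (N.sv a ((i : ℕ) / Fintype.card B)) (lab B i) =
      ∑ h : J a × SL3 (l a), ∑ b : B, f h b := by
  rw [← (Equiv.prodCongr (N.sE a) (Fintype.equivFin B)).trans finProdFinEquiv |>.sum_comp,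
    Fintype.sum_prod_type]
  refine Finset.sum_congr rfl fun h _ => Finset.sum_congr rfl fun b _ => ?_
  have e1 : ((((Equiv.prodCongr (N.sE a) (Fintype.equivFin B)).trans finProdFinEquiv) (h, b) :
      Fin _) : ℕ) = unk (N.sn a h) b := rfl
  rw [e1, unk_div, lab_unk, N.sv_sn]

/-- The content `w b` is computable in polynomial time (as a table). -/
def CT {β : Type} [Enc β] (N : JNum A l J) (L : α → ℕ) (u : β → α)
    (w : ∀ b, J (u b) → Fl (L (u b))) : Prop :=
  FT A (fun p : β × ℕ => L (u p.1)) (fun p => w p.1 (N.val (u p.1) (p.2 % 2 ^ N.κ (u p.1))))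

variable {β : Type} [Enc β] {u : β → α} {L : α → ℕ}

omit [∀ a, Fintype (J a)] in
theorem CT.apply {w : ∀ b, J (u b) → Fl (L (u b))} (hw : CT N L u w) {x : ∀ b, J (u b)}
    (hx : N.JT u x) : FT A (fun b => L (u b)) (fun b => w b (x b)) := by
  have h0 : PT A (fun p : β × ℕ => cod (L (u p.1))
      (w p.1 (N.val (u p.1) (p.2 % 2 ^ N.κ (u p.1))))) := hw
  have h1 : PT A (fun b => (b, N.num (u b) (x b))) := PT.id.pair hx
  refine (PT.comp (g := fun p : β × ℕ => cod (L (u p.1))
    (w p.1 (N.val (u p.1) (p.2 % 2 ^ N.κ (u p.1))))) h0 h1).congr fun b => ?_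
  beta_reduce
  rw [Nat.mod_eq_of_lt (N.num_lt _ _), N.val_num]

omit [∀ a, Fintype (J a)] in
theorem CT.of {w : ∀ b, J (u b) → Fl (L (u b))} (hu : PT A u)
    (h : ∀ {γ : Type} [Enc γ] (v : γ → β) (x : ∀ c, J (u (v c))), PT A v →
      N.JT (fun c => u (v c)) x → FT A (fun c => L (u (v c))) (fun c => w (v c) (x c))) :
    CT N L u w :=
  h (fun p : β × ℕ => p.1) _ PT.fst' (JNum.JT.ofNum (hu.comp PT.fst') PT.snd')

theorem FT.ofZ {l : β → ℕ} (x : ZMod 2) :
    FT A l (fun b => algebraMap (ZMod 2) (Fl (l b)) x) := by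
  have h : x = 0 ∨ x = 1 := by revert x; decide
  rcases h with rfl | rfl
  · exact FT.zero.congr fun b => (map_zero _).symm
  · exact FT.one.congr fun b => (map_one _).symm

omit [∀ a, Fintype (J a)] in
theorem ST.ifEq {h h' : ∀ b, J (u b) × SL3 (l (u b))} (hh : N.ST u h) (hh' : N.ST u h')
    {x : ∀ b, Fl (L (u b))} (hx : FT A (fun b => L (u b)) x) :
    FT A (fun b => L (u b)) (fun b => ifEq (h b) (h' b) (x b)) := by
  letI : ∀ b, Decidable (h b = h' b) := fun b => Classical.propDecidable _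
  have h1 : PT A (fun b => decide (h b = h' b)) := by
    refine (PT.eqNat hh hh').congr fun b => ?_
    rw [decide_eq_decide]
    exact ⟨fun e => N.sn_inj e, fun e => by rw [e]⟩
  exact FT.ite h1 hx FT.zero

variable {bet : ∀ a, B → J a} {η : ∀ a, B → SL3 (l a)}
  {P0 P1 : Submodule (ZMod 2) (B → ZMod 2)} {B1 B2 : Finset B} {eps : ∀ a, Fl (L a)} {b0 : B}

/-- The coefficients of the system, for fixed labels. -/
theorem FT_coef (hl : GPar A l) (hL : LPar A L) (hbet : ∀ b, N.JT (fun a : α => a) fun a => bet a b)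
    (hη : ∀ b, GT A l fun a => η a b) (heps : FT A L eps) (hu : PT A u)
    {h h' : ∀ b, J (u b) × SL3 (l (u b))} (hh : N.ST u h) (hh' : N.ST u h') (c c' : B) :
    FT A (fun b => L (u b)) (fun b =>
      coef (cdOf (bet (u b)) (η (u b)) P0 P1 B1 B2 (eps (u b)) b0) P0 P1 B1 B2 (eps (u b))
        (h b) c (h' b) c') := by
  have hL' : LPar A (fun b => L (u b)) := hL.comp hu
  unfold coef
  by_cases h1 : c ∈ B1
  · simp only [if_pos h1]
    exact ST.ifEq hh' hh (FT.ofZ _)
  · simp only [if_neg h1]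
    by_cases h2 : c ∈ B2
    · simp only [if_pos h2]
      have h3 : N.JT u (fun b => bet (u b) c') := (hbet c').comp hu
      have h4 : GT A (fun b => l (u b)) (fun b => η (u b) c') :=
        PT.comp (g := fun a => gn (l a) (η a c')) (hη c') hu
      have h5 : N.ST u (fun b => (cdOf (bet (u b)) (η (u b)) P0 P1 B1 B2 (eps (u b)) b0).nb c'
          (h b)) := JNum.ST.nb hl hu h3 h4 hh
      have h6 : FT A (fun b => L (u b)) (fun b => eps (u b)) := heps.comp hu
      refine ST.ifEq hh' h5 (FT.mul hL' (FT.ofZ _) ?_)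
      by_cases h7 : c' ∈ B1
      · exact h6.congr fun b => (if_pos h7).symm
      · exact FT.one.congr fun b => (if_neg h7).symm
    · simp only [if_neg h2]
      refine ST.ifEq hh' hh ?_
      by_cases h3 : c' = c
      · exact FT.one.congr fun b => (if_pos h3).symm
      · exact FT.zero.congr fun b => (if_neg h3).symm

/-- The entries of the matrix of the system. -/
theorem FT_entry (hl : GPar A l) (hL : LPar A L) (hbet : ∀ b, N.JT (fun a : α => a) fun a => bet a b)
    (hη : ∀ b, GT A l fun a => η a b) (heps : FT A L eps) (hu : PT A u) {i j : β → ℕ}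
    (hi : PT A i) (hj : PT A j) :
    FT A (fun b => L (u b)) (fun b =>
      coef (cdOf (bet (u b)) (η (u b)) P0 P1 B1 B2 (eps (u b)) b0) P0 P1 B1 B2 (eps (u b))
        (N.sv (u b) (i b / Fintype.card B)) (lab B (i b))
        (N.sv (u b) (j b / Fintype.card B)) (lab B (j b))) := by
  classical
  have hsi : N.ST u (fun b => N.sv (u b) (i b / Fintype.card B)) :=
    JNum.ST.ofNum hl hu (PT.div hi (PT.const _))
  have hsj : N.ST u (fun b => N.sv (u b) (j b / Fintype.card B)) :=
    JNum.ST.ofNum hl hu (PT.div hj (PT.const _))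
  have hci : ∀ c : B, PT A (fun b => decide (lab B (i b) = c)) := fun c =>
    (PT.eqNat (PT.mod hi (PT.const _)) (PT.const _)).congr fun b => by
      rw [decide_eq_decide]; exact (lab_eq_iff _ _).symm
  have hcj : ∀ c : B, PT A (fun b => decide (lab B (j b) = c)) := fun c =>
    (PT.eqNat (PT.mod hj (PT.const _)) (PT.const _)).congr fun b => by
      rw [decide_eq_decide]; exact (lab_eq_iff _ _).symm
  have h1 : FT A (fun b => L (u b)) (fun b => ∑ c : B, ∑ c' : B,
      if lab B (i b) = c then (if lab B (j b) = c' then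
        coef (cdOf (bet (u b)) (η (u b)) P0 P1 B1 B2 (eps (u b)) b0) P0 P1 B1 B2 (eps (u b))
          (N.sv (u b) (i b / Fintype.card B)) c (N.sv (u b) (j b / Fintype.card B)) c'
        else 0) else 0) :=
    FT.sum_finset _ fun c _ => FT.sum_finset _ fun c' _ =>
      FT.ite (hci c) (FT.ite (hcj c') (FT_coef hl hL hbet hη heps hu hsi hsj c c') FT.zero)
        FT.zero
  refine h1.congr fun b => ?_
  rw [Finset.sum_eq_single (lab B (i b))]
  · rw [Finset.sum_eq_single (lab B (j b))]
    · rw [if_pos rfl, if_pos rfl]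
    · intro c' _ hne
      rw [if_pos rfl, if_neg (Ne.symm hne)]
    · intro hn
      exact absurd (Finset.mem_univ _) hn
  · intro c _ hne
    refine Finset.sum_eq_zero fun c' _ => ?_
    rw [if_neg (Ne.symm hne)]
  · intro hn
    exact absurd (Finset.mem_univ _) hn

/-- The matrix of the system. -/
noncomputable def sysM (N : JNum A l J) (L : α → ℕ) (bet : ∀ a, B → J a) (η : ∀ a, B → SL3 (l a))
    (P0 P1 : Submodule (ZMod 2) (B → ZMod 2)) (B1 B2 : Finset B) (eps : ∀ a, Fl (L a)) (b0 : B)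
    (a : α) : Matrix (Fin (N.sc a * Fintype.card B)) (Fin (N.sc a * Fintype.card B)) (Fl (L a)) :=
  Matrix.of fun i j => coef (cdOf (bet a) (η a) P0 P1 B1 B2 (eps a) b0) P0 P1 B1 B2 (eps a)
    (N.sv a ((i : ℕ) / Fintype.card B)) (lab B i) (N.sv a ((j : ℕ) / Fintype.card B)) (lab B j)

/-- A word as a vector of unknowns. -/
noncomputable def vecW (N : JNum A l J) (L : α → ℕ) (a : α) (X : J a × SL3 (l a) → B → Fl (L a)) :
    Fin (N.sc a * Fintype.card B) → Fl (L a) :=
  fun i => X (N.sv a ((i : ℕ) / Fintype.card B)) (lab B i)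

omit [∀ a, Fintype (J a)] [DecidableEq B] in
theorem unk_sv {a : α} {i : ℕ} (h : i < N.sc a * Fintype.card B) :
    unk (N.sn a (N.sv a (i / Fintype.card B))) (lab B i) = i := by
  rw [N.sn_sv (div_lt_of_unk h)]
  unfold unk
  have h1 := (lab_eq_iff i (lab B i)).1 rfl
  rw [← h1]
  exact Nat.mod_add_div i _

omit [∀ a, Fintype (J a)] [DecidableEq B] in
theorem vecW_inj {a : α} {X Y : J a × SL3 (l a) → B → Fl (L a)}
    (h : vecW N L a X = vecW N L a Y) : X = Y := by
  funext x b
  have h1 : unk (N.sn a x) b < N.sc a * Fintype.card B := unk_lt (N.sn_lt a x) b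
  have h2 := congrFun h ⟨_, h1⟩
  unfold vecW at h2
  simp only [unk_div, lab_unk, N.sv_sn] at h2
  exact h2

omit [∀ a, Fintype (J a)] [DecidableEq B] in
theorem exists_vecW (a : α) (v : Fin (N.sc a * Fintype.card B) → Fl (L a)) :
    ∃ X : J a × SL3 (l a) → B → Fl (L a), vecW N L a X = v := by
  refine ⟨fun x b => v ⟨unk (N.sn a x) b, unk_lt (N.sn_lt a x) b⟩, ?_⟩
  funext i
  exact congrArg v (Fin.ext (unk_sv i.2))

theorem sysM_mulVec (a : α) (X : J a × SL3 (l a) → B → Fl (L a)) :
    (sysM N L bet η P0 P1 B1 B2 eps b0 a).mulVec (vecW N L a X) = vecW N L a fun h c =>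
      if c ∈ B1 then ∑ j, dualCk P0 B1 c j • X h j
      else if c ∈ B2 then ∑ j, dualCk P1 B2 c j •
        ((if j ∈ B1 then eps a else 1) *
          X ((cdOf (bet a) (η a) P0 P1 B1 B2 (eps a) b0).nb j h) j)
      else X h c := by
  funext i
  unfold Matrix.mulVec dotProduct
  have h1 := sum_unk (N := N) a (fun h' c' =>
    coef (cdOf (bet a) (η a) P0 P1 B1 B2 (eps a) b0) P0 P1 B1 B2 (eps a)
      (N.sv a ((i : ℕ) / Fintype.card B)) (lab B i) h' c' * X h' c')
  have h2 := sum_coef (bet a) (η a) P0 P1 B1 B2 (eps a) b0 X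
    (N.sv a ((i : ℕ) / Fintype.card B)) (lab B i)
  rw [h2] at h1
  exact h1

theorem sysM_injective (hi1 : IsInfo P0 B1) (hc1 : B1.card = Module.finrank (ZMod 2) P0)
    (hi2 : IsInfo P1 B2) (hc2 : B2.card = Module.finrank (ZMod 2) P1) (hd : Disjoint B1 B2)
    (a : α) (hS : (cdOf (bet a) (η a) P0 P1 B1 B2 (eps a) b0).Good) :
    Function.Injective (sysM N L bet η P0 P1 B1 B2 eps b0 a).mulVec := by
  have key : ∀ v, (sysM N L bet η P0 P1 B1 B2 eps b0 a).mulVec v = 0 → v = 0 := by
    intro v hv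
    obtain ⟨X, rfl⟩ := exists_vecW (N := N) (B := B) a v
    rw [sysM_mulVec] at hv
    have h0 : vecW N L a (0 : J a × SL3 (l a) → B → Fl (L a)) = 0 := rfl
    rw [← h0] at hv ⊢
    have h1 := vecW_inj hv
    rw [eq_zero_of_checks hS hi1 hc1 hi2 hc2 hd fun h c => congrFun (congrFun h1 h) c]
  intro v w h
  have h1 : (sysM N L bet η P0 P1 B1 B2 eps b0 a).mulVec (v - w) = 0 := by
    rw [Matrix.mulVec_sub]
    exact sub_eq_zero.2 h
  exact sub_eq_zero.1 (key _ h1)

theorem FT_rhs (hl : GPar A l) (hu : PT A u) {w : ∀ b, J (u b) → Fl (L (u b))}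
    (hw : CT N L u w) {i : β → ℕ} (hi : PT A i) :
    FT A (fun b => L (u b)) (fun b =>
      rhs B1 B2 (w b) (N.sv (u b) (i b / Fintype.card B)) (lab B (i b))) := by
  classical
  have hsi : N.ST u (fun b => N.sv (u b) (i b / Fintype.card B)) :=
    JNum.ST.ofNum hl hu (PT.div hi (PT.const _))
  have hci : ∀ c : B, PT A (fun b => decide (lab B (i b) = c)) := fun c =>
    (PT.eqNat (PT.mod hi (PT.const _)) (PT.const _)).congr fun b => by
      rw [decide_eq_decide]; exact (lab_eq_iff _ _).symm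
  have hx : FT A (fun b => L (u b)) (fun b =>
      w b (N.sv (u b) (i b / Fintype.card B)).1) := hw.apply (JNum.ST.fst hu hsi)
  have h1 : FT A (fun b => L (u b)) (fun b => ∑ c : B,
      if lab B (i b) = c then rhs B1 B2 (w b) (N.sv (u b) (i b / Fintype.card B)) c else 0) := by
    refine FT.sum_finset _ fun c _ => FT.ite (hci c) ?_ FT.zero
    unfold rhs
    by_cases h1 : c ∈ B1
    · exact FT.zero.congr fun b => (if_pos h1).symm
    · simp only [if_neg h1]
      by_cases h2 : c ∈ B2
      · exact FT.zero.congr fun b => (if_pos h2).symm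
      · simp only [if_neg h2]
        exact hx
  refine h1.congr fun b => ?_
  rw [Finset.sum_eq_single (lab B (i b))]
  · rw [if_pos rfl]
  · intro c _ hne
    rw [if_neg (Ne.symm hne)]
  · intro hn
    exact absurd (Finset.mem_univ _) hn

/-- **The table of the word `E u` in polynomial time.** -/
theorem VT_E (hl : GPar A l) (hL : LPar A L) (hbet : ∀ b, N.JT (fun a : α => a) fun a => bet a b)
    (hη : ∀ b, GT A l fun a => η a b) (heps : FT A L eps)
    (hi1 : IsInfo P0 B1) (hc1 : B1.card = Module.finrank (ZMod 2) P0)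
    (hi2 : IsInfo P1 B2) (hc2 : B2.card = Module.finrank (ZMod 2) P1) (hd : Disjoint B1 B2)
    (hu : PT A u) (hS : ∀ b, (cdOf (bet (u b)) (η (u b)) P0 P1 B1 B2 (eps (u b)) b0).Good)
    {w : ∀ b, J (u b) → Fl (L (u b))} (hw : CT N L u w) :
    VT A (fun b => L (u b)) (fun b => N.sc (u b) * Fintype.card B) (fun b =>
      vecW N L (u b) ((cdOf (bet (u b)) (η (u b)) P0 P1 B1 B2 (eps (u b)) b0).E (w b))) := by
  have hn : NPar A (fun b => N.sc (u b) * Fintype.card B) :=
    ⟨PT.mul ((N.PT_sc hl).comp hu) (PT.const _),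
      (PBd.comp (b := N.sc) (N.PBd_sc hl) hu).mul (PBd.const _)⟩
  have hM : MT A (fun b => L (u b)) (fun b => N.sc (u b) * Fintype.card B)
      (fun b => sysM N L bet η P0 P1 B1 B2 eps b0 (u b)) :=
    MT.of hn (F := fun b i j => coef (cdOf (bet (u b)) (η (u b)) P0 P1 B1 B2 (eps (u b)) b0)
      P0 P1 B1 B2 (eps (u b)) (N.sv (u b) (i / Fintype.card B)) (lab B i)
        (N.sv (u b) (j / Fintype.card B)) (lab B j))
      (FT_entry (u := fun q : β × ℕ × ℕ => u q.1) hl hL hbet hη heps (hu.comp PT.fst')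
        PT.snd'.fst PT.snd'.snd)
  have hv : VT A (fun b => L (u b)) (fun b => N.sc (u b) * Fintype.card B) (fun b i =>
      rhs B1 B2 (w b) (N.sv (u b) ((i : ℕ) / Fintype.card B)) (lab B i)) := by
    refine VT.of hn (F := fun b i => rhs B1 B2 (w b) (N.sv (u b) (i / Fintype.card B)) (lab B i))
      ?_
    have hw' : CT N L (fun q : β × ℕ => u q.1) (fun q => w q.1) := by
      have h0 : PT A (fun p : β × ℕ => cod (L (u p.1))
        (w p.1 (N.val (u p.1) (p.2 % 2 ^ N.κ (u p.1))))) := hw
      exact PT.comp (f := fun q : (β × ℕ) × ℕ => (q.1.1, q.2)) h0 (PT.fst'.fst.pair PT.snd')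
    exact FT_rhs (u := fun q : β × ℕ => u q.1) hl (hu.comp PT.fst') hw' PT.snd'
  refine VT.solve_of_injective (hL.comp hu) hn hM hv
    (fun b => sysM_injective hi1 hc1 hi2 hc2 hd (u b) (hS b)) fun b => ?_
  rw [sysM_mulVec]
  have h1 := checks_E (hS b) (w b)
  funext i
  exact h1 _ _

/-- Values of the word `E u` in polynomial time. -/
theorem FT_E (hl : GPar A l) (hL : LPar A L) (hbet : ∀ b, N.JT (fun a : α => a) fun a => bet a b)
    (hη : ∀ b, GT A l fun a => η a b) (heps : FT A L eps)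
    (hi1 : IsInfo P0 B1) (hc1 : B1.card = Module.finrank (ZMod 2) P0)
    (hi2 : IsInfo P1 B2) (hc2 : B2.card = Module.finrank (ZMod 2) P1) (hd : Disjoint B1 B2)
    (hu : PT A u) (hS : ∀ b, (cdOf (bet (u b)) (η (u b)) P0 P1 B1 B2 (eps (u b)) b0).Good)
    {w : ∀ b, J (u b) → Fl (L (u b))} (hw : CT N L u w)
    {h : ∀ b, J (u b) × SL3 (l (u b))} (hh : N.ST u h) (c : B) :
    FT A (fun b => L (u b)) (fun b =>
      (cdOf (bet (u b)) (η (u b)) P0 P1 B1 B2 (eps (u b)) b0).E (w b) (h b) c) := by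
  have h1 := VT_E hl hL hbet hη heps hi1 hc1 hi2 hc2 hd hu hS hw
  have hi : PT A (fun b => unk (N.sn (u b) (h b)) c) :=
    PT.add (PT.const _) (PT.mul (PT.const _) hh)
  refine (VT.entryF h1 hi).congr fun b => ?_
  rw [dif_pos (unk_lt (N.sn_lt _ _) c)]
  unfold vecW
  simp only [unk_div, lab_unk, N.sv_sn]

end table

end Vale.Agent.P330.H933
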