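import Vale.Agent.P330.H933.PubC
import Vale.Agent.P330.H933.Gen
import Vale.Agent.P330.H657.RS2
import Vale.Agent.P330.H633.MPPTI

/-!
# Contents in polynomial time: the concrete parameters

The system of the subspace polynomials over `Fl l` for the powers of the generator, and the
machine of a family of NAND programs.
-/

namespace Vale.Agent.P330.H933

open Polynomial
open Vale.Agent.Lib.PolyTime Vale.Agent.P330.H16 Vale.Agent.P330.H657

/-! ### The subspace polynomials of the powers of the generator -/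

theorem indep_th {l κ : ℕ} (h : κ ≤ eF l) : Indep (fun i : Fin κ => th l ^ (i : ℕ)) :=
  indep_pow (th l) fun _ hf hd => aeval_th_ne_zero hf (lt_of_lt_of_le hd h)

/-- The Reed-Solomon system of the powers of the generator. -/
noncomputable def rth (l κ : ℕ) (h : κ ≤ eF l) : RSys κ (Fl l) :=
  rsys (fun i : Fin κ => th l ^ (i : ℕ)) (indep_th h)

theorem rth_s {l κ : ℕ} (h : κ ≤ eF l) {j i : ℕ} (hj : j < κ) (hi : i < κ) :
    (rth l κ h).s j (e κ i) = sg l j i := by
  unfold rth
  rw [rsys_s]
  exact ss_e (indep_th h) (sg l) (fun i _ => rfl) (pow_zero _) (fun _ _ => rfl) hj hi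

variable {A : Set Word} {β : Type*} [Enc β]

theorem RPar.rth {l κ : β → ℕ} (hl : LPar A l) (hκ : NPar A κ) (h : ∀ b, κ b ≤ eF (l b)) :
    RPar A κ l (fun b => H933.rth (l b) (κ b) (h b)) :=
  ⟨hl, hκ, fun b _ hj _ hi => rth_s (h b) hj hi⟩

/-! ### Machines -/

/-- The machines of a polynomial time family of NAND programs. -/
theorem MPar.ofMD (D : H633.MD A β) (hκ : PT A D.κ) (hκb : PBd fun b => 2 ^ D.κ b) :
    MPar A D.M where
  k := D.hk
  kbd := D.hb
  κ := hκ
  κbd := hκb
  n := D.hn
  L := D.PT_L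
  Lbd := D.PBd_L
  dir := H874.PT.dirS (D.hk.comp PT.fst') (PBd.comp (b := D.k) D.PBd_k (PT.fst' (A := A)))
    PT.snd'
  dir_le b s := H874.dirS_le _ _
  sw := by
    refine ⟨fun b s x => ((D.swL b).getD s []).getD x false, ?_, fun b s hs x hx =>
      (H633.MD.getD_swL hs hx).symm⟩
    exact PT.getD (PT.getD (D.PT_swL.comp PT.fst') PT.snd'.fst (PT.const [])) PT.snd'.snd
      (PT.const false)
  prev := by
    refine ⟨fun b x => (D.prevL b).getD x 0, ?_, fun b x hx => (H633.MD.getD_prevL hx).symm⟩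
    exact PT.getD (D.PT_prevL.comp PT.fst') PT.snd' (PT.const 0)
  off := D.hoff

end Vale.Agent.P330.H933
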