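import Vale.Agent.P330.H933.Sub
import Vale.Agent.P330.H244.Base

/-!
# Contents of the machine in polynomial time

`WT A κ L w`: the content `w b : Ct (κ b) (Fl (L b))` is a polynomial time function of the number
of the point.  Low degree extensions, the words of the machine.
-/

namespace Vale.Agent.P330.H933

open Vale.Agent.Lib.PolyTime Vale.Agent.P330.H16

variable {A : Set Word} {β : Type*} [Enc β] {κ L : β → ℕ}

/-! ### Points -/

/-- The content `w b` is computable in polynomial time, pointwise. -/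
def WT (A : Set Word) (κ L : β → ℕ) (w : ∀ b, Ct (κ b) (Fl (L b))) : Prop :=
  FT A (fun p : β × ℕ => L p.1) (fun p => w p.1 (pt (κ p.1) p.2))

theorem WT.apply {w : ∀ b, Ct (κ b) (Fl (L b))} (hw : WT A κ L w) {n : β → ℕ} (hn : PT A n) :
    FT A L (fun b => w b (pt (κ b) (n b))) := by
  have h0 : PT A (fun p : β × ℕ => cod (L p.1) (w p.1 (pt (κ p.1) p.2))) := hw
  exact PT.comp (g := fun p : β × ℕ => cod (L p.1) (w p.1 (pt (κ p.1) p.2)))
    (f := fun b => (b, n b)) h0 (PT.id.pair hn)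

theorem WT.comp {γ : Type*} [Enc γ] {w : ∀ b, Ct (κ b) (Fl (L b))} (hw : WT A κ L w) {u : γ → β}
    (hu : PT A u) : WT A (fun c => κ (u c)) (fun c => L (u c)) (fun c => w (u c)) := by
  have h0 : PT A (fun p : β × ℕ => cod (L p.1) (w p.1 (pt (κ p.1) p.2))) := hw
  exact PT.comp (g := fun p : β × ℕ => cod (L p.1) (w p.1 (pt (κ p.1) p.2)))
    (f := fun p : γ × ℕ => (u p.1, p.2)) h0 ((hu.comp PT.fst').pair PT.snd')

theorem WT.congr {w w' : ∀ b, Ct (κ b) (Fl (L b))} (hw : WT A κ L w) (h : ∀ b x, w b x = w' b x) :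
    WT A κ L w' := by
  have : w = w' := funext fun b => funext fun x => h b x
  rwa [this] at hw

theorem pt_mod (κ p : ℕ) : pt κ (p % 2 ^ κ) = pt κ p := by
  funext j
  unfold pt
  rw [Nat.testBit_mod_two_pow]
  simp [j.2]

theorem num_pt_mod (κ p : ℕ) : num (pt κ p) = p % 2 ^ κ := by
  rw [← pt_mod, num_pt (Nat.mod_lt _ (by positivity))]

theorem FT.bF {l : β → ℕ} {c : β → Bool} (hc : PT A c) :
    FT A l (fun b => bF (Fl (l b)) (c b)) := by
  have h1 : PT A (fun b => decide (c b = true)) := hc.congr fun b => by simp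
  exact FT.ite h1 FT.one FT.zero

/-! ### The subspace polynomials -/

/-- Standing assumption: the system of subspace polynomials is the one of the powers of the
generator. -/
structure RPar (A : Set Word) (κ L : β → ℕ) (R : ∀ b, RSys (κ b) (Fl (L b))) : Prop where
  lpar : LPar A L
  npar : NPar A κ
  s_e : ∀ b, ∀ j < κ b, ∀ i < κ b, (R b).s j (e (κ b) i) = sg (L b) j i

theorem RPar.comp {γ : Type*} [Enc γ] {R : ∀ b, RSys (κ b) (Fl (L b))} (h : RPar A κ L R)
    {u : γ → β} (hu : PT A u) :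
    RPar A (fun c => κ (u c)) (fun c => L (u c)) (fun c => R (u c)) :=
  ⟨h.lpar.comp hu, h.npar.comp hu, fun c => h.s_e (u c)⟩

theorem pt_eq_sum (κ p : ℕ) :
    pt κ p = ∑ i ∈ Finset.range κ, if p.testBit i then e κ i else 0 := by
  funext j
  rw [Finset.sum_apply, Finset.sum_eq_single (j : ℕ)]
  · unfold pt e
    split_ifs <;> simp
  · intro i _ hne
    unfold e
    split_ifs
    · simp [Ne.symm hne]
    · rfl
  · intro h
    exact absurd (Finset.mem_range.2 j.2) h

theorem s_pt {κ L : ℕ} (R : RSys κ (Fl L)) (j p : ℕ) :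
    R.s j (pt κ p) = ∑ i ∈ Finset.range κ, if p.testBit i then R.s j (e κ i) else 0 := by
  conv_lhs => rw [pt_eq_sum κ p]
  rw [RSys.s_sum]
  refine Finset.sum_congr rfl fun i _ => ?_
  split_ifs
  · rfl
  · exact R.s_zero j

variable {R : ∀ b, RSys (κ b) (Fl (L b))}

/-- The values of the subspace polynomials, from the table. -/
noncomputable def sv (L κ j p : ℕ) : Fl L :=
  ∑ i ∈ Finset.range κ, if p.testBit i then sg L j i else 0

theorem RPar.s_eq (hR : RPar A κ L R) (b : β) {j : ℕ} (hj : j < κ b) (p : ℕ) :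
    (R b).s j (pt (κ b) p) = sv (L b) (κ b) j p := by
  rw [s_pt]
  refine Finset.sum_congr rfl fun i hi => ?_
  rw [hR.s_e b _ hj _ (Finset.mem_range.1 hi)]

theorem FT_sv (hl : LPar A L) (hκ : NPar A κ) {j p : β → ℕ} (hj : NPar A j) (hp : PT A p) :
    FT A L (fun b => sv (L b) (κ b) (j b) (p b)) := by
  have hκ' : NPar A (fun q : β × ℕ => κ q.1) := hκ.comp PT.fst'
  have hi : NPar A (fun q : β × ℕ => min q.2 (κ q.1)) :=
    ⟨PT.min PT.snd' hκ'.pt, hκ'.bd.mono fun q => min_le_right _ _⟩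
  have h1 : FT A (fun q : β × ℕ => L q.1) (fun q => if (p q.1).testBit q.2 then
      sg (L q.1) (j q.1) (min q.2 (κ q.1)) else 0) := by
    refine FT.ite ?_ (FT.sg (hl.comp PT.fst') (hj.comp PT.fst') hi) FT.zero
    refine (PT.testBit (hp.comp PT.fst') PT.snd').congr fun q => ?_
    simp
  refine (FT.sum_range hl hκ.pt hκ.bd (F := fun b i => if (p b).testBit i then
    sg (L b) (j b) (min i (κ b)) else 0) h1).congr fun b => ?_
  refine Finset.sum_congr rfl fun i hi => ?_
  rw [min_eq_left (Finset.mem_range.1 hi).le]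

theorem FT_s (hR : RPar A κ L R) {j : β → ℕ} (hj : NPar A j) (hjκ : ∀ b, j b < κ b) {p : β → ℕ}
    (hp : PT A p) : FT A L (fun b => (R b).s (j b) (pt (κ b) (p b))) :=
  (FT_sv hR.lpar hR.npar hj hp).congr fun b => (hR.s_eq b (hjκ b) _).symm

/-- The Lagrange polynomials. -/
theorem FT_L (hR : RPar A κ L R) {k : β → ℕ} (hk : NPar A k) (hkκ : ∀ b, k b ≤ κ b)
    {p x : β → ℕ} (hp : PT A p) (hx : PT A x) :
    FT A L (fun b => (R b).L (k b) (p b) (pt (κ b) (x b))) := by
  have hl' : LPar A (fun q : β × ℕ => L q.1) := hR.lpar.comp PT.fst'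
  have hκ' : NPar A (fun q : β × ℕ => κ q.1) := hR.npar.comp PT.fst'
  have hj : NPar A (fun q : β × ℕ => min q.2 (κ q.1)) :=
    ⟨PT.min PT.snd' hκ'.pt, hκ'.bd.mono fun q => min_le_right _ _⟩
  have h1 : FT A (fun q : β × ℕ => L q.1) (fun q => 1 +
      sv (L q.1) (κ q.1) (min q.2 (κ q.1)) (x q.1) +
      sv (L q.1) (κ q.1) (min q.2 (κ q.1)) (p q.1)) :=
    FT.add (FT.add FT.one (FT_sv hl' hκ' hj (hx.comp PT.fst')))
      (FT_sv hl' hκ' hj (hp.comp PT.fst'))
  refine (FT.prod_range hR.lpar hk.pt hk.bd (F := fun b j => 1 +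
      sv (L b) (κ b) (min j (κ b)) (x b) + sv (L b) (κ b) (min j (κ b)) (p b)) h1).congr
    fun b => ?_
  unfold RSys.L
  refine Finset.prod_congr rfl fun j hj => ?_
  have hj' : j < κ b := lt_of_lt_of_le (Finset.mem_range.1 hj) (hkκ b)
  rw [min_eq_left hj'.le, hR.s_eq b hj', hR.s_eq b hj']

/-- Low degree extensions. -/
theorem WT.lde (hR : RPar A κ L R) {k : β → ℕ} (hk : NPar A k) (hk2 : PBd fun b => 2 ^ k b)
    (hkκ : ∀ b, k b ≤ κ b) {g : ∀ b, ℕ → Fl (L b)}
    (hg : FT A (fun q : β × ℕ => L q.1) (fun q => g q.1 q.2)) :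
    WT A κ L (fun b => (R b).lde (k b) (g b)) := by
  have h2k : PT A (fun b => 2 ^ k b) := PT.pow (PT.const 2) hk.pt hk.bd
  have hR2 := hR.comp (γ := (β × ℕ) × ℕ) (u := fun q => q.1.1) PT.fst'.fst
  have hk' : NPar A (fun q : (β × ℕ) × ℕ => k q.1.1) := hk.comp PT.fst'.fst
  have hL : FT A (fun q : (β × ℕ) × ℕ => L q.1.1)
      (fun q => (R q.1.1).L (k q.1.1) q.2 (pt (κ q.1.1) q.1.2)) :=
    FT_L hR2 hk' (fun q => hkκ _) PT.snd' PT.fst'.snd
  have hg0 : PT A (fun q : β × ℕ => cod (L q.1) (g q.1 q.2)) := hg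
  have hg' : FT A (fun q : (β × ℕ) × ℕ => L q.1.1) (fun q => g q.1.1 q.2) :=
    PT.comp (g := fun q : β × ℕ => cod (L q.1) (g q.1 q.2))
      (f := fun q : (β × ℕ) × ℕ => (q.1.1, q.2)) hg0 (PT.fst'.fst.pair PT.snd')
  have h3 : PT A (fun q : β × ℕ => 2 ^ k q.1) := h2k.comp PT.fst'
  have h4 : PBd (fun q : β × ℕ => 2 ^ k q.1) :=
    PBd.comp (b := fun b => 2 ^ k b) hk2 (PT.fst' (A := A))
  exact FT.sum_range (l := fun q : β × ℕ => L q.1) (n := fun q => 2 ^ k q.1)
    (hR.lpar.comp PT.fst') h3 h4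
    (F := fun q p => g q.1 p * (R q.1).L (k q.1) p (pt (κ q.1) q.2))
    (FT.mul hR2.lpar hg' hL)

theorem WT.mul {w w' : ∀ b, Ct (κ b) (Fl (L b))} (hl : LPar A L) (hw : WT A κ L w)
    (hw' : WT A κ L w') : WT A κ L (fun b x => w b x * w' b x) :=
  FT.mul (hl.comp PT.fst') hw hw'

theorem WT.add {w w' : ∀ b, Ct (κ b) (Fl (L b))} (hw : WT A κ L w) (hw' : WT A κ L w') :
    WT A κ L (fun b x => w b x + w' b x) := FT.add hw hw'

theorem WT.zero : WT A κ L (fun _ _ => 0) := FT.zero

theorem WT.one : WT A κ L (fun _ _ => 1) := FT.one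

theorem WT.ite {p : β → Prop} [DecidablePred p] (hp : PT A (fun b => decide (p b)))
    {w w' : ∀ b, Ct (κ b) (Fl (L b))} (hw : WT A κ L w) (hw' : WT A κ L w') :
    WT A κ L (fun b => if p b then w b else w' b) := by
  have h1 : PT A (fun q : β × ℕ => decide (p q.1)) :=
    PT.comp (g := fun b => decide (p b)) (f := fun q : β × ℕ => q.1) hp PT.fst'
  refine (FT.ite (p := fun q : β × ℕ => p q.1) h1 hw hw').congr fun q => ?_
  beta_reduce
  split_ifs <;> rfl

/-- Data words. -/
theorem WT.dw (hκ : NPar A κ) {k : β → ℕ} (hk : NPar A k) {g : ∀ b, ℕ → Fl (L b)}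
    (hg : FT A (fun q : β × ℕ => L q.1) (fun q => g q.1 q.2)) :
    WT A κ L (fun b => dw (κ b) (k b) (g b)) := by
  have hm : PT A (fun q : β × ℕ => q.2 % 2 ^ κ q.1) :=
    PT.mod PT.snd' ((PT.pow (PT.const 2) hκ.pt hκ.bd).comp PT.fst')
  have hk' : PT A (fun q : β × ℕ => 2 ^ k q.1) :=
    (PT.pow (PT.const 2) hk.pt hk.bd).comp PT.fst'
  have hg0 : PT A (fun q : β × ℕ => cod (L q.1) (g q.1 q.2)) := hg
  have hg' : FT A (fun q : β × ℕ => L q.1) (fun q => g q.1 (q.2 % 2 ^ κ q.1)) :=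
    PT.comp (g := fun q : β × ℕ => cod (L q.1) (g q.1 q.2))
      (f := fun q : β × ℕ => (q.1, q.2 % 2 ^ κ q.1)) hg0 (PT.fst'.pair hm)
  refine (FT.ite (PT.lt hm hk') hg' FT.zero).congr fun q => ?_
  unfold H16.dw
  beta_reduce
  rw [num_pt_mod]

/-! ### The machine -/

/-- The parameters of the machine are computable in polynomial time. -/
structure MPar (A : Set Word) (M : β → MP) : Prop where
  k : PT A fun b => (M b).k
  kbd : PBd fun b => 2 ^ (M b).k
  κ : PT A fun b => (M b).κ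
  κbd : PBd fun b => 2 ^ (M b).κ
  n : PT A fun b => (M b).n
  L : PT A fun b => (M b).L
  Lbd : PBd fun b => (M b).L
  dir : PT A fun q : β × ℕ => (M q.1).dir q.2
  dir_le : ∀ b s, (M b).dir s ≤ (M b).k
  sw : ∃ f : β → ℕ → ℕ → Bool, PT A (fun q : β × ℕ × ℕ => f q.1 q.2.1 q.2.2) ∧
    ∀ b, ∀ s < (M b).L, ∀ x < 2 ^ (M b).k, (M b).sw s x = f b s x
  prev : ∃ f : β → ℕ → ℕ, PT A (fun q : β × ℕ => f q.1 q.2) ∧
    ∀ b, ∀ x < 2 ^ (M b).k, (M b).prev x = f b x
  off : ∀ z, PT A fun b => (M b).off z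

namespace MPar

variable {M : β → MP}

theorem kN (h : MPar A M) : NPar A fun b => (M b).k :=
  ⟨h.k, h.kbd.mono fun _ => Nat.lt_two_pow_self.le⟩

theorem κN (h : MPar A M) : NPar A fun b => (M b).κ :=
  ⟨h.κ, h.κbd.mono fun _ => Nat.lt_two_pow_self.le⟩

theorem k2 (h : MPar A M) : PT A fun b => 2 ^ (M b).k := PT.pow (PT.const 2) h.k h.kN.bd

theorem comp {γ : Type*} [Enc γ] (h : MPar A M) {u : γ → β} (hu : PT A u) :
    MPar A (fun c => M (u c)) where
  k := h.k.comp hu
  kbd := PBd.comp (b := fun b => 2 ^ (M b).k) h.kbd hu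
  κ := h.κ.comp hu
  κbd := PBd.comp (b := fun b => 2 ^ (M b).κ) h.κbd hu
  n := h.n.comp hu
  L := h.L.comp hu
  Lbd := PBd.comp (b := fun b => (M b).L) h.Lbd hu
  dir := PT.comp (g := fun q : β × ℕ => (M q.1).dir q.2) (f := fun q : γ × ℕ => (u q.1, q.2))
    h.dir ((hu.comp PT.fst').pair PT.snd')
  dir_le c := h.dir_le (u c)
  sw := by
    obtain ⟨f, h1, h2⟩ := h.sw
    exact ⟨fun c => f (u c), PT.comp (g := fun q : β × ℕ × ℕ => f q.1 q.2.1 q.2.2)
      (f := fun q : γ × ℕ × ℕ => (u q.1, q.2.1, q.2.2)) h1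
        ((hu.comp PT.fst').pair (PT.snd'.fst.pair PT.snd'.snd)), fun c => h2 (u c)⟩
  prev := by
    obtain ⟨f, h1, h2⟩ := h.prev
    exact ⟨fun c => f (u c), PT.comp (g := fun q : β × ℕ => f q.1 q.2)
      (f := fun q : γ × ℕ => (u q.1, q.2)) h1 ((hu.comp PT.fst').pair PT.snd'),
        fun c => h2 (u c)⟩
  off z := (h.off z).comp hu

end MPar

/-- The rule for the value of a slot, reading the values of the older slots in a list. -/
def valR (isIn isCopy : Bool) (inp : Bool) (prev y : ℕ) (T : List Bool) : Bool :=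
  if isIn then inp
  else if isCopy then T.getD prev false
  else if y % 4 = 2 then !(T.getD (y - 2) false && T.getD (y - 1) false)
  else false

theorem val_eq_valR (M : MP) (inp : ℕ → Bool) {y : ℕ} :
    M.val inp y = valR (M.isIn y) (M.isCopy y) (inp (y / 4)) (M.prev y) y
      ((List.range y).map (M.val inp)) := by
  have h1 : ∀ z, z < y → ((List.range y).map (M.val inp)).getD z false = M.val inp z := by
    intro z hz
    simp [List.getD_eq_getElem?_getD, hz]
  rw [MP.val]
  unfold valR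
  by_cases ha : M.isIn y = true
  · rw [if_pos ha, if_pos ha]
  · rw [if_neg ha, if_neg ha]
    by_cases hb : M.isCopy y = true
    · rw [if_pos hb, if_pos hb]
      by_cases hc : M.prev y < y
      · rw [dif_pos hc, h1 _ hc]
      · rw [dif_neg hc]
        simp [List.getD_eq_getElem?_getD, not_lt.1 hc]
    · rw [if_neg hb, if_neg hb]
      by_cases hc : y % 4 = 2
      · rw [if_pos hc, if_pos hc, h1 _ (by omega), h1 _ (by omega)]
      · rw [if_neg hc, if_neg hc]

theorem PT.isIn {M : β → MP} (h : MPar A M) {y : β → ℕ} (hy : PT A y) :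
    PT A (fun b => (M b).isIn (y b)) := by
  unfold MP.isIn
  exact PT.decide_and (PT.eqNat (PT.mod hy (PT.const 4)) (PT.const 0))
    (PT.lt hy (PT.mul (PT.const 4) h.n))

theorem PT.isCopy {M : β → MP} (h : MPar A M) {y : β → ℕ} (hy : PT A y) :
    PT A (fun b => (M b).isCopy (y b)) := by
  unfold MP.isCopy
  exact PT.decide_or (PT.eqNat (PT.mod hy (PT.const 4)) (PT.const 1))
    (PT.decide_and (PT.eqNat (PT.mod hy (PT.const 4)) (PT.const 0))
      (PT.le (PT.mul (PT.const 4) h.n) hy))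

theorem PT.valR {a c d : β → Bool} {p y : β → ℕ} {T : β → List Bool} (ha : PT A a) (hc : PT A c)
    (hd : PT A d) (hp : PT A p) (hy : PT A y) (hT : PT A T) :
    PT A (fun b => valR (a b) (c b) (d b) (p b) (y b) (T b)) := by
  unfold H933.valR
  have e : ∀ {f : β → Bool}, PT A f → PT A (fun b => decide (f b = true)) := fun hf =>
    hf.congr fun b => by simp
  exact PT.ite (e ha) hd (PT.ite (e hc) (PT.getD hT hp (PT.const false))
    (PT.ite (PT.eqNat (PT.mod hy (PT.const 4)) (PT.const 2))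
      (PT.not (PT.and (PT.getD hT (PT.sub hy (PT.const 2)) (PT.const false))
        (PT.getD hT (PT.sub hy (PT.const 1)) (PT.const false)))) (PT.const false)))

/-- The table of the values of the slots. -/
theorem PT_valTab {M : β → MP} (h : MPar A M) {inp : β → ℕ → Bool}
    (hi : PT A (fun q : β × ℕ => inp q.1 q.2)) :
    PT A (fun b => (List.range (2 ^ (M b).k)).map ((M b).val (inp b))) := by
  obtain ⟨f, hf, hf'⟩ := h.prev
  -- the recursion
  let st : β → ℕ → List Bool → List Bool := fun b y T =>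
    T ++ [valR ((M b).isIn y) ((M b).isCopy y) (inp b (y / 4)) (f b y) y T]
  have key : ∀ b y, y ≤ 2 ^ (M b).k → Nat.rec (motive := fun _ => List Bool) [] (st b) y =
      (List.range y).map ((M b).val (inp b)) := by
    intro b y
    induction y with
    | zero => intro _; rfl
    | succ y ih =>
      intro hy
      change st b y (Nat.rec (motive := fun _ => List Bool) [] (st b) y) = _
      rw [ih (by omega), List.range_succ, List.map_append, List.map_singleton]
      rw [val_eq_valR (M b) (inp b) (y := y), hf' b y (by omega)]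
  have hu : PT A (fun q : β × ℕ × List Bool => q.1) := PT.fst'
  have hM := h.comp hu
  have hst : PT A (fun q : β × ℕ × List Bool => st q.1 q.2.1 q.2.2) := by
    have h1 : PT A (fun q : β × ℕ × List Bool => inp q.1 (q.2.1 / 4)) :=
      PT.comp (g := fun q : β × ℕ => inp q.1 q.2)
        (f := fun q : β × ℕ × List Bool => (q.1, q.2.1 / 4)) hi
        (PT.fst'.pair (PT.div PT.snd'.fst (PT.const 4)))
    have h2 : PT A (fun q : β × ℕ × List Bool => f q.1 q.2.1) :=
      PT.comp (g := fun q : β × ℕ => f q.1 q.2)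
        (f := fun q : β × ℕ × List Bool => (q.1, q.2.1)) hf (PT.fst'.pair PT.snd'.fst)
    have h3 : PT A (fun q : β × ℕ × List Bool => valR ((M q.1).isIn q.2.1)
        ((M q.1).isCopy q.2.1) (inp q.1 (q.2.1 / 4)) (f q.1 q.2.1) q.2.1 q.2.2) :=
      PT.valR (PT.isIn hM PT.snd'.fst) (PT.isCopy hM PT.snd'.fst) h1 h2 PT.snd'.fst PT.snd'.snd
    exact PT.append PT.snd'.snd (PT.cons h3 PT.nil)
  have hB : PBd (fun b => 2 ^ (M b).k * 3) := h.kbd.mul (PBd.const 3)
  refine (PT.natRec (k := fun b => 2 ^ (M b).k) (init := fun _ => []) (step := st) h.k2 h.kbd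
    PT.nil hst hB fun b y hy => ?_).congr fun b => key b _ le_rfl
  rw [key b y hy]
  have h5 : ∀ x ∈ (List.range y).map ((M b).val (inp b)), esize x ≤ 1 := fun x _ => le_rfl
  have h6 := esize_list_le h5
  rw [List.length_map, List.length_range] at h6
  exact h6.trans (Nat.mul_le_mul_right _ hy)

/-- The values of the slots. -/
theorem PT_val {M : β → MP} (h : MPar A M) {inp : β → ℕ → Bool}
    (hi : PT A (fun q : β × ℕ => inp q.1 q.2)) {y : β → ℕ} (hy : PT A y)
    (hlt : ∀ b, y b < 2 ^ (M b).k) : PT A (fun b => (M b).val (inp b) (y b)) := by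
  refine (PT.getD (PT_valTab h hi) hy (PT.const false)).congr fun b => ?_
  simp [List.getD_eq_getElem?_getD, hlt b]

/-! ### The banks -/

theorem val_congr (M : MP) {inp inp' : ℕ → Bool} (h : ∀ i < M.n, inp i = inp' i) (y : ℕ) :
    M.val inp y = M.val inp' y := by
  induction y using Nat.strong_induction_on with
  | _ y ih =>
    rw [val_eq_valR, val_eq_valR (inp := inp')]
    have h1 : (List.range y).map (M.val inp) = (List.range y).map (M.val inp') :=
      List.map_congr_left fun z hz => ih z (List.mem_range.1 hz)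
    rw [h1]
    unfold valR
    by_cases ha : M.isIn y = true
    · rw [if_pos ha, if_pos ha]
      unfold MP.isIn at ha
      rw [decide_eq_true_eq] at ha
      exact h _ (by omega)
    · rw [if_neg ha, if_neg ha]

/-- A computable family of states. -/
structure SPar (A : Set Word) (M : β → MP) (s : ∀ _ : β, MP.State) : Prop where
  z : PT A fun b => (s b).z
  x : PT A fun q : β × ℕ => (s q.1).x q.2
  t : PT A fun b => (s b).t

theorem SPar.comp {γ : Type*} [Enc γ] {M : β → MP} {s : ∀ _ : β, MP.State} (h : SPar A M s)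
    {u : γ → β} (hu : PT A u) : SPar A (fun c => M (u c)) (fun c => s (u c)) where
  z := h.z.comp hu
  x := PT.comp (g := fun q : β × ℕ => (s q.1).x q.2) (f := fun q : γ × ℕ => (u q.1, q.2)) h.x
    ((hu.comp PT.fst').pair PT.snd')
  t := h.t.comp hu

theorem PT_valN {M : β → MP} (h : MPar A M) {inp : β → ℕ → Bool}
    (hi : PT A (fun q : β × ℕ => inp q.1 q.2)) {y : β → ℕ} (hy : PT A y) :
    PT A (fun b => if y b < 2 ^ (M b).k then (M b).val (inp b) (y b) else false) := by
  refine (PT.getD (PT_valTab h hi) hy (PT.const false)).congr fun b => ?_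
  split_ifs with h1
  · simp [List.getD_eq_getElem?_getD, h1]
  · simp [List.getD_eq_getElem?_getD, not_lt.1 h1]

theorem PT_off {M : β → MP} (h : MPar A M) {z : β → Bool} (hz : PT A z) :
    PT A (fun b => (M b).off (z b)) := by
  refine (PT.cond hz (h.off true) (h.off false)).congr fun b => ?_
  cases z b <;> rfl

/-- The inputs of the second bank. -/
theorem PT_nx {M : β → MP} (h : MPar A M) (hG : ∀ b, (M b).Good) {s : ∀ _ : β, MP.State}
    (hs : SPar A M s) {i : β → ℕ} (hi : PT A i) :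
    PT A (fun b => decide (i b < (M b).n) && (M b).nx (s b).z (s b).x (i b)) := by
  have h1 : PT A (fun b => (4 * i b) ^^^ (M b).off (s b).z) :=
    PT.natXor (PT.mul (PT.const 4) hi) (PT_off h hs.z)
  refine (PT.and (PT.lt hi h.n) (PT_valN h (inp := fun b => (s b).x) hs.x h1)).congr fun b => ?_
  by_cases h2 : i b < (M b).n
  · have h3 : (4 * i b) ^^^ (M b).off (s b).z < 2 ^ (M b).k :=
      Nat.xor_lt_two_pow (by have := (hG b).hnk; omega) ((hG b).off_lt _)
    rw [if_pos h3]
    rfl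
  · simp [h2]

/-- The banks of a state (`false` outside of the slots). -/
theorem PT_bank {M : β → MP} (h : MPar A M) (hG : ∀ b, (M b).Good) {s : ∀ _ : β, MP.State}
    (hs : SPar A M s) {c : β → Bool} (hc : PT A c) {y : β → ℕ} (hy : PT A y) :
    PT A (fun b => if y b < 2 ^ (M b).k then (M b).bank (s b) (c b) (y b) else false) := by
  have h1 := PT_valN h (inp := fun b => (s b).x) hs.x hy
  have h2 : PT A (fun q : β × ℕ => decide (q.2 < (M q.1).n) && (M q.1).nx (s q.1).z (s q.1).x q.2) :=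
    PT_nx (h.comp PT.fst') (fun q => hG q.1) (hs.comp PT.fst') PT.snd'
  have h3 : PT A (fun b => if y b < 2 ^ (M b).k then (M b).val
      (fun i => decide (i < (M b).n) && (M b).nx (s b).z (s b).x i) (y b) else false) :=
    PT_valN h (inp := fun b i => decide (i < (M b).n) && (M b).nx (s b).z (s b).x i) h2 hy
  have h4 : PT A (fun b => Bool.xor (c b) (s b).z) := PT.xor hc hs.z
  refine (PT.cond h4 (PT.and (PT.lt hy hs.t) h3) h1).congr fun b => ?_
  have e1 : (M b).val (fun i => decide (i < (M b).n) && (M b).nx (s b).z (s b).x i) (y b) =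
      (M b).val ((M b).nx (s b).z (s b).x) (y b) :=
    val_congr (M b) (fun i hi => by simp [hi]) _
  rw [e1]
  unfold MP.bank
  by_cases h5 : y b < 2 ^ (M b).k
  · rw [if_pos h5, if_pos h5, if_pos h5]
    by_cases h6 : c b = (s b).z
    · rw [if_pos h6, h6]
      simp
    · rw [if_neg h6]
      have h7 : Bool.xor (c b) (s b).z = true := by
        cases hcb : c b <;> cases hz : (s b).z <;> simp_all
      rw [h7]
      rfl
  · rw [if_neg h5, if_neg h5, if_neg h5]
    cases Bool.xor (c b) (s b).z <;> simp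

/-! ### Routing -/

theorem rt_comp (M : MP) {γ δ : Type} (g : γ → δ) (w : ℕ → γ) (s : ℕ) :
    M.rt (fun y => g (w y)) s = fun x => g (M.rt w s x) := by
  induction s with
  | zero => rfl
  | succ s ih =>
    funext x
    change M.stg s (M.rt (fun y => g (w y)) s) x = g (M.stg s (M.rt w s) x)
    rw [ih]
    unfold MP.stg
    split_ifs <;> rfl

/-- Tracing back through `j` stages, from stage `s`. -/
def bwN (sw : ℕ → ℕ → Bool) (dir : ℕ → ℕ) (s x : ℕ) (j : ℕ) : ℕ :=
  Nat.rec (motive := fun _ => ℕ) x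
    (fun j y => if sw (s - 1 - j) y then y ^^^ 2 ^ dir (s - 1 - j) else y) j

theorem bwN_succ (sw : ℕ → ℕ → Bool) (dir : ℕ → ℕ) (s x j : ℕ) :
    bwN sw dir s x (j + 1) = if sw (s - 1 - j) (bwN sw dir s x j) then
      bwN sw dir s x j ^^^ 2 ^ dir (s - 1 - j) else bwN sw dir s x j := rfl

theorem bwN_lt {sw : ℕ → ℕ → Bool} {dir : ℕ → ℕ} {s x K : ℕ} (hx : x < 2 ^ K)
    (hd : ∀ i, dir i < K) (j : ℕ) : bwN sw dir s x j < 2 ^ K := by
  induction j with
  | zero => exact hx
  | succ j ih =>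
    rw [bwN_succ]
    split_ifs
    · exact Nat.xor_lt_two_pow ih (Nat.pow_lt_pow_right (by norm_num) (hd _))
    · exact ih

theorem bwN_lt' {sw : ℕ → ℕ → Bool} {dir : ℕ → ℕ} {s x K : ℕ} (hx : x < 2 ^ K)
    (hd : ∀ i < s, dir i < K) : ∀ j ≤ s, bwN sw dir s x j < 2 ^ K := by
  intro j
  induction j with
  | zero => intro _; exact hx
  | succ j ih =>
    intro hj
    rw [bwN_succ]
    split_ifs
    · exact Nat.xor_lt_two_pow (ih (by omega))
        (Nat.pow_lt_pow_right (by norm_num) (hd _ (by omega)))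
    · exact ih (by omega)

theorem rt_bwN (M : MP) (hG : M.Good) {γ : Type} (w : ℕ → γ) {f : ℕ → ℕ → Bool}
    (hf : ∀ s < M.L, ∀ x < 2 ^ M.k, M.sw s x = f s x) {s x : ℕ} (hs : s ≤ M.L)
    (hx : x < 2 ^ M.k) : ∀ j ≤ s, M.rt w s x = M.rt w (s - j) (bwN f M.dir s x j) := by
  intro j
  induction j with
  | zero => intro _; rfl
  | succ j ih =>
    intro hj
    rw [ih (by omega)]
    have h1 : s - j = (s - 1 - j) + 1 := by omega
    have h2 : s - (j + 1) = s - 1 - j := by omega
    have h3 := bwN_lt' (sw := f) (s := s) hx (fun i hi => hG.dir_lt i (by omega)) j (by omega)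
    rw [h1, h2, bwN_succ]
    change M.stg (s - 1 - j) (M.rt w (s - 1 - j)) (bwN f M.dir s x j) = _
    unfold MP.stg
    rw [hf _ (by omega) _ h3]
    split_ifs <;> rfl

/-- Routed words in polynomial time. -/
theorem FT_rt {M : β → MP} (h : MPar A M) (hG : ∀ b, (M b).Good) {l : β → ℕ}
    {w : ∀ b, ℕ → Fl (l b)} (hw : FT A (fun q : β × ℕ => l q.1) (fun q => w q.1 q.2))
    {s x : β → ℕ} (hs : PT A s) (hx : PT A x) (hsL : ∀ b, s b ≤ (M b).L)
    (hxk : ∀ b, x b < 2 ^ (M b).k) :
    FT A l (fun b => (M b).rt (w b) (s b) (x b)) := by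
  obtain ⟨f, hf, hf'⟩ := h.sw
  have hw0 : PT A (fun q : β × ℕ => cod (l q.1) (w q.1 q.2)) := hw
  have h1 : PT A (fun b => bwN (f b) (M b).dir (s b) (x b) (s b)) := by
    have hst : PT A (fun q : β × ℕ × ℕ => if f q.1 (s q.1 - 1 - q.2.1) q.2.2 then
        q.2.2 ^^^ 2 ^ (M q.1).dir (s q.1 - 1 - q.2.1) else q.2.2) := by
      have h2 : PT A (fun q : β × ℕ × ℕ => s q.1 - 1 - q.2.1) :=
        PT.sub (PT.sub (hs.comp PT.fst') (PT.const 1)) PT.snd'.fst
      have h3 : PT A (fun q : β × ℕ × ℕ => f q.1 (s q.1 - 1 - q.2.1) q.2.2) :=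
        PT.comp (g := fun q : β × ℕ × ℕ => f q.1 q.2.1 q.2.2)
          (f := fun q : β × ℕ × ℕ => (q.1, s q.1 - 1 - q.2.1, q.2.2)) hf
          (PT.fst'.pair (h2.pair PT.snd'.snd))
      have h4 : PT A (fun q : β × ℕ × ℕ => (M q.1).dir (s q.1 - 1 - q.2.1)) :=
        PT.comp (g := fun q : β × ℕ => (M q.1).dir q.2)
          (f := fun q : β × ℕ × ℕ => (q.1, s q.1 - 1 - q.2.1)) h.dir (PT.fst'.pair h2)
      have h5 : PBd (fun q : β × ℕ × ℕ => (M q.1).dir (s q.1 - 1 - q.2.1)) :=
        (PBd.comp (b := fun b => (M b).k) h.kN.bd (PT.fst' (A := A))).mono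
          fun q => h.dir_le _ _
      exact PT.ifNat h3 (PT.natXor PT.snd'.snd (PT.pow (PT.const 2) h4 h5)) PT.snd'.snd
    have hsb : PBd s := h.Lbd.mono hsL
    have hB : PBd (fun b => (M b).k + 1) := h.kN.bd.add (PBd.const 1)
    exact PT.natRec (init := x) (step := fun b j y => if f b (s b - 1 - j) y then
      y ^^^ 2 ^ (M b).dir (s b - 1 - j) else y) hs hsb hx hst hB fun b j _ =>
        esize_nat_le (bwN_lt (sw := f b) (dir := (M b).dir) (s := s b) (K := (M b).k + 1)
          ((hxk b).trans (Nat.pow_lt_pow_right (by norm_num) (Nat.lt_succ_self _)))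
          (fun i => Nat.lt_succ_of_le (h.dir_le b i)) j)
  refine (PT.comp (g := fun q : β × ℕ => cod (l q.1) (w q.1 q.2))
    (f := fun b => (b, bwN (f b) (M b).dir (s b) (x b) (s b))) hw0 (PT.id.pair h1)).congr
    fun b => ?_
  have e := rt_bwN (M b) (hG b) (w b) (hf' b) (hsL b) (hxk b) (s b) le_rfl
  rw [Nat.sub_self] at e
  beta_reduce
  rw [e]
  rfl

/-! ### The contents of a state -/

theorem lde_congr {κ k : ℕ} {F : Type} [Field F] (R : RSys κ F) {g g' : ℕ → F}
    (h : ∀ p < 2 ^ k, g p = g' p) : R.lde k g = R.lde k g' := by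
  funext x
  unfold RSys.lde
  exact Finset.sum_congr rfl fun p hp => by rw [h p (Finset.mem_range.1 hp)]

theorem rt_congr (M : MP) (hG : M.Good) {γ : Type} {w w' : ℕ → γ}
    (hw : ∀ y < 2 ^ M.k, w y = w' y) {s x : ℕ} (hs : s ≤ M.L) (hx : x < 2 ^ M.k) :
    M.rt w s x = M.rt w' s x := by
  have h1 := rt_bwN M hG w (f := M.sw) (fun _ _ _ _ => rfl) hs hx s le_rfl
  have h2 := rt_bwN M hG w' (f := M.sw) (fun _ _ _ _ => rfl) hs hx s le_rfl
  rw [Nat.sub_self] at h1 h2
  rw [h1, h2]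
  exact hw _ (bwN_lt' hx (fun i hi => hG.dir_lt i (by omega)) s le_rfl)

/-- Routed words, guarded. -/
theorem FT_rt' {M : β → MP} (h : MPar A M) (hG : ∀ b, (M b).Good) {l : β → ℕ}
    {w : ∀ b, ℕ → Fl (l b)} (hw : FT A (fun q : β × ℕ => l q.1) (fun q => w q.1 q.2))
    {s x : β → ℕ} (hs : PT A s) (hx : PT A x) :
    FT A l (fun b => if s b ≤ (M b).L ∧ x b < 2 ^ (M b).k then (M b).rt (w b) (s b) (x b)
      else 0) := by
  have h1 : PT A (fun b => min (s b) (M b).L) := PT.min hs h.L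
  have h2 : PT A (fun b => x b % 2 ^ (M b).k) := PT.mod hx h.k2
  have h3 := FT_rt h hG hw h1 h2 (fun b => min_le_right _ _)
    (fun b => Nat.mod_lt _ (by positivity))
  have h4 : PT A (fun b => decide (s b ≤ (M b).L ∧ x b < 2 ^ (M b).k)) :=
    PT.decide_and (PT.le hs h.L) (PT.lt hx h.k2)
  refine (FT.ite h4 h3 FT.zero).congr fun b => ?_
  by_cases h5 : s b ≤ (M b).L ∧ x b < 2 ^ (M b).k
  · rw [if_pos h5, if_pos h5, min_eq_left h5.1, Nat.mod_eq_of_lt h5.2]
  · rw [if_neg h5, if_neg h5]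

section Cont

variable {M : β → MP} {l : β → ℕ} {R : ∀ b, RSys (M b).κ (Fl (l b))}

/-- The extensions of the switch words. -/
theorem WT.swE (h : MPar A M) (hG : ∀ b, (M b).Good) (hR : RPar A (fun b => (M b).κ) l R)
    {s : β → ℕ} (hs : PT A s) :
    WT A (fun b => (M b).κ) l (fun b x => if s b < (M b).L then (M b).swE (R b) (s b) x
      else 0) := by
  obtain ⟨f, hf, hf'⟩ := h.sw
  have h1 : PT A (fun q : β × ℕ => f q.1 (s q.1) q.2) :=
    PT.comp (g := fun q : β × ℕ × ℕ => f q.1 q.2.1 q.2.2)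
      (f := fun q : β × ℕ => (q.1, s q.1, q.2)) hf (PT.fst'.pair ((hs.comp PT.fst').pair PT.snd'))
  have h2 := WT.lde hR h.kN h.kbd (fun b => (Nat.le_add_right _ 3).trans (hG b).hκ)
    (g := fun b x => bF (Fl (l b)) (f b (s b) x)) (FT.bF h1)
  have h3 : PT A (fun b => decide (s b < (M b).L)) := PT.lt hs h.L
  refine (WT.ite h3 h2 WT.zero).congr fun b x => ?_
  by_cases h4 : s b < (M b).L
  · rw [if_pos h4, if_pos h4]
    unfold MP.swE
    rw [lde_congr (R b) fun p hp => by rw [← hf' b _ h4 p hp]]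
  · rw [if_neg h4, if_neg h4]

/-- Truth values as constant contents. -/
theorem WT.bF {κ l : β → ℕ} {c : β → Bool} (hc : PT A c) :
    WT A κ l (fun b _ => bF (Fl (l b)) (c b)) := FT.bF (hc.comp PT.fst')

variable {s : ∀ _ : β, MP.State}

/-- The bank `c` of a state, as a word with values in the field. -/
noncomputable def bk (M : MP) (l : ℕ) (s : MP.State) (c : Bool) (y : ℕ) : Fl l :=
  H16.bF (Fl l) (if y < 2 ^ M.k then M.bank s c y else false)

theorem bk_eq (M : MP) (l : ℕ) (s : MP.State) (c : Bool) {y : ℕ} (hy : y < 2 ^ M.k) :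
    bk M l s c y = H16.bF (Fl l) (M.bank s c y) := by
  unfold bk
  rw [if_pos hy]

theorem FT_bk (h : MPar A M) (hG : ∀ b, (M b).Good) (hs : SPar A M s) {c : β → Bool}
    (hc : PT A c) {y : β → ℕ} (hy : PT A y) : FT A l (fun b => bk (M b) (l b) (s b) (c b) (y b)) :=
  FT.bF (PT_bank h hG hs hc hy)

theorem cont_w (M : MP) {F : Type} [Field F] (R : RSys M.κ F) (s : MP.State) (c : Bool)
    (x : V2 M.κ) : (M.cont R s).w c x = if num x < 2 ^ M.k then H16.bF F (M.bank s c (num x))
      else 0 := rfl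

theorem cont_P (M : MP) {F : Type} [Field F] (R : RSys M.κ F) (s : MP.State) (c : Bool) (i : ℕ)
    (x : V2 M.κ) : (M.cont R s).P c i x = if i < M.L then M.swE R i x *
      R.lde M.k (fun p => M.rt (fun y => H16.bF F (M.bank s c y)) i p +
        M.rt (fun y => H16.bF F (M.bank s c y)) i (p ^^^ 2 ^ M.dir i)) x else 0 := rfl

/-- The data words of a state. -/
theorem WT.contW (h : MPar A M) (hG : ∀ b, (M b).Good) (hs : SPar A M s) {c : β → Bool}
    (hc : PT A c) :
    WT A (fun b => (M b).κ) l (fun b => ((M b).cont (R b) (s b)).w (c b)) := by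
  have h1 : FT A (fun q : β × ℕ => l q.1) (fun q => bk (M q.1) (l q.1) (s q.1) (c q.1) q.2) :=
    FT_bk (h.comp PT.fst') (fun q => hG q.1) (hs.comp PT.fst') (hc.comp PT.fst') PT.snd'
  refine (WT.dw h.κN h.kN (g := fun b y => bk (M b) (l b) (s b) (c b) y) h1).congr
    fun b x => ?_
  rw [cont_w, H16.dw]
  split_ifs with h1
  · exact bk_eq _ _ _ _ h1
  · rfl

/-- The sums of the pairs of a stage. -/
noncomputable def prw (M : MP) (l : ℕ) (s : MP.State) (c : Bool) (i p : ℕ) : Fl l :=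
  (if i ≤ M.L ∧ p < 2 ^ M.k then M.rt (bk M l s c) i p else 0) +
    (if i ≤ M.L ∧ p ^^^ 2 ^ M.dir i < 2 ^ M.k then M.rt (bk M l s c) i (p ^^^ 2 ^ M.dir i) else 0)

theorem prw_eq (M : MP) (hG : M.Good) (l : ℕ) (s : MP.State) (c : Bool) {i p : ℕ} (hi : i < M.L)
    (hp : p < 2 ^ M.k) : prw M l s c i p = M.rt (fun y => H16.bF (Fl l) (M.bank s c y)) i p +
      M.rt (fun y => H16.bF (Fl l) (M.bank s c y)) i (p ^^^ 2 ^ M.dir i) := by
  have hp2 : p ^^^ 2 ^ M.dir i < 2 ^ M.k :=
    Nat.xor_lt_two_pow hp (Nat.pow_lt_pow_right (by norm_num) (hG.dir_lt _ hi))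
  unfold prw
  rw [if_pos ⟨hi.le, hp⟩, if_pos ⟨hi.le, hp2⟩]
  congr 1
  · exact rt_congr M hG (fun y hy => bk_eq _ _ _ _ hy) hi.le hp
  · exact rt_congr M hG (fun y hy => bk_eq _ _ _ _ hy) hi.le hp2

theorem FT_prw (h : MPar A M) (hG : ∀ b, (M b).Good) (hs : SPar A M s) {c : β → Bool}
    (hc : PT A c) {i p : β → ℕ} (hi : PT A i) (hp : PT A p) :
    FT A l (fun b => prw (M b) (l b) (s b) (c b) (i b) (p b)) := by
  have hb : FT A (fun q : β × ℕ => l q.1) (fun q => bk (M q.1) (l q.1) (s q.1) (c q.1) q.2) :=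
    FT_bk (h.comp PT.fst') (fun q => hG q.1) (hs.comp PT.fst') (hc.comp PT.fst') PT.snd'
  have hd : PT A (fun b => (M b).dir (i b)) :=
    PT.comp (g := fun q : β × ℕ => (M q.1).dir q.2) (f := fun b => (b, i b)) h.dir
      (PT.id.pair hi)
  have hdb : PBd (fun b => (M b).dir (i b)) := h.kN.bd.mono fun q => h.dir_le _ _
  have hx : PT A (fun b => p b ^^^ 2 ^ (M b).dir (i b)) :=
    PT.natXor hp (PT.pow (PT.const 2) hd hdb)
  exact FT.add (FT_rt' h hG (w := fun b => bk (M b) (l b) (s b) (c b)) hb hi hp)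
    (FT_rt' h hG (w := fun b => bk (M b) (l b) (s b) (c b)) hb hi hx)

/-- The products of the stages of a state. -/
theorem WT.contP (h : MPar A M) (hG : ∀ b, (M b).Good) (hR : RPar A (fun b => (M b).κ) l R)
    (hs : SPar A M s) {c : β → Bool} (hc : PT A c) {i : β → ℕ} (hi : PT A i) :
    WT A (fun b => (M b).κ) l (fun b => ((M b).cont (R b) (s b)).P (c b) (i b)) := by
  have h1 : FT A (fun q : β × ℕ => l q.1)
      (fun q => prw (M q.1) (l q.1) (s q.1) (c q.1) (i q.1) q.2) :=
    FT_prw (h.comp PT.fst') (fun q => hG q.1) (hs.comp PT.fst') (hc.comp PT.fst')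
      (hi.comp PT.fst') PT.snd'
  have h2 : WT A (fun b => (M b).κ) l (fun b => (R b).lde (M b).k
      (prw (M b) (l b) (s b) (c b) (i b))) :=
    WT.lde hR h.kN h.kbd (fun b => (Nat.le_add_right _ 3).trans (hG b).hκ) h1
  have h3 := WT.mul hR.lpar (WT.swE h hG hR hi) h2
  refine h3.congr fun b x => ?_
  rw [cont_P]
  by_cases h4 : i b < (M b).L
  · rw [if_pos h4, if_pos h4,
      lde_congr (R b) fun p hp => prw_eq (M b) (hG b) (l b) (s b) (c b) h4 hp]
  · rw [if_neg h4, if_neg h4, zero_mul]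

/-- The product of the gates of a state. -/
theorem WT.contQ (h : MPar A M) (hG : ∀ b, (M b).Good) (hR : RPar A (fun b => (M b).κ) l R)
    (hs : SPar A M s) {c : β → Bool} (hc : PT A c) :
    WT A (fun b => (M b).κ) l (fun b => ((M b).cont (R b) (s b)).Q (c b)) := by
  have key : ∀ j < 4, WT A (fun b => (M b).κ) l (fun b => (R b).lde (M b).k fun p =>
      if p % 4 = 2 then H16.bF (Fl (l b)) ((M b).bank (s b) (c b) (p ^^^ j)) else 0) := by
    intro j hj
    have h1 : PT A (fun q : β × ℕ => q.2 ^^^ j) := PT.natXor PT.snd' (PT.const j)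
    have h2 : FT A (fun q : β × ℕ => l q.1)
        (fun q => bk (M q.1) (l q.1) (s q.1) (c q.1) (q.2 ^^^ j)) :=
      FT_bk (h.comp PT.fst') (fun q => hG q.1) (hs.comp PT.fst') (hc.comp PT.fst') h1
    have h3 : PT A (fun q : β × ℕ => decide (q.2 % 4 = 2)) :=
      PT.eqNat (PT.mod PT.snd' (PT.const 4)) (PT.const 2)
    have h4 : WT A (fun b => (M b).κ) l (fun b => (R b).lde (M b).k
        (fun p => if p % 4 = 2 then bk (M b) (l b) (s b) (c b) (p ^^^ j) else 0)) :=
      WT.lde hR h.kN h.kbd (fun b => (Nat.le_add_right _ 3).trans (hG b).hκ)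
        (g := fun b p => if p % 4 = 2 then bk (M b) (l b) (s b) (c b) (p ^^^ j) else 0)
        (FT.ite h3 h2 FT.zero)
    refine h4.congr fun b x => congrFun (lde_congr (R b) fun p hp => ?_) x
    have h5 : p ^^^ j < 2 ^ (M b).k := by
      have := Nat.pow_le_pow_right (n := 2) (by norm_num) (hG b).hk
      exact Nat.xor_lt_two_pow hp (by omega)
    rw [bk_eq _ _ _ _ h5]
  exact WT.mul hR.lpar (key 2 (by norm_num)) (key 3 (by norm_num))

/-- The base contents of a tuple of contents, in the order `z`, the bits of `t`, the data words,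
the products of the stages, the products of the gates. -/
def cfn (M : MP) {F : Type} [Field F] (c : Cont M.κ F) (i : ℕ) : Ct M.κ F :=
  if i = 0 then fun _ => H16.bF F c.z
  else if i ≤ M.k + 1 then fun _ => H16.bF F (c.t.testBit (i - 1))
  else if i = M.k + 2 then c.w false
  else if i = M.k + 3 then c.w true
  else if i < M.k + 4 + M.L then c.P false (i - (M.k + 4))
  else if i < M.k + 4 + 2 * M.L then c.P true (i - (M.k + 4 + M.L))
  else if i = M.k + 4 + 2 * M.L then c.Q false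
  else c.Q true

/-- **All base contents of a computable family of states**, uniformly in the index. -/
theorem WT.cfn (h : MPar A M) (hG : ∀ b, (M b).Good) (hR : RPar A (fun b => (M b).κ) l R)
    (hs : SPar A M s) {i : β → ℕ} (hi : PT A i) :
    WT A (fun b => (M b).κ) l (fun b => H933.cfn (M b) ((M b).cont (R b) (s b)) (i b)) := by
  have hk4 : PT A (fun b => (M b).k + 4) := PT.add h.k (PT.const 4)
  have hk4L : PT A (fun b => (M b).k + 4 + (M b).L) := PT.add hk4 h.L
  have hk42 : PT A (fun b => (M b).k + 4 + 2 * (M b).L) := PT.add hk4 (PT.mul (PT.const 2) h.L)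
  have hf : PT A (fun _ : β => false) := PT.const false
  have ht : PT A (fun _ : β => true) := PT.const true
  have hbit : PT A (fun b => (s b).t.testBit (i b - 1)) :=
    PT.testBit hs.t (PT.sub hi (PT.const 1))
  have h1 : WT A (fun b => (M b).κ) l (fun b _ => H16.bF (Fl (l b)) (s b).z) := WT.bF hs.z
  have h2 : WT A (fun b => (M b).κ) l
      (fun b _ => H16.bF (Fl (l b)) ((s b).t.testBit (i b - 1))) := WT.bF hbit
  have h3 := WT.contW (R := R) (l := l) h hG hs hf
  have h4 := WT.contW (R := R) (l := l) h hG hs ht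
  have h5 := WT.contP h hG hR hs hf (PT.sub hi hk4)
  have h6 := WT.contP h hG hR hs ht (PT.sub hi hk4L)
  have h7 := WT.contQ h hG hR hs hf
  have h8 := WT.contQ h hG hR hs ht
  exact WT.ite (PT.eqNat hi (PT.const 0)) h1 (WT.ite (PT.le hi (PT.add h.k (PT.const 1))) h2
    (WT.ite (PT.eqNat hi (PT.add h.k (PT.const 2))) h3
    (WT.ite (PT.eqNat hi (PT.add h.k (PT.const 3))) h4
    (WT.ite (PT.lt hi hk4L) h5 (WT.ite (PT.lt hi hk42) h6
    (WT.ite (PT.eqNat hi hk42) h7 h8))))))

/-- The hard-wired contents: the constant `1` and the extensions of the switch words. -/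
noncomputable def pubF (M : MP) {F : Type} [Field F] (R : RSys M.κ F) (p : ℕ) : Ct M.κ F :=
  if p = 0 then fun _ => 1 else fun x => if p - 1 < M.L then M.swE R (p - 1) x else 0

theorem pubF_zero (M : MP) {F : Type} [Field F] (R : RSys M.κ F) : pubF M R 0 = fun _ => 1 :=
  if_pos rfl

theorem pubF_succ (M : MP) {F : Type} [Field F] (R : RSys M.κ F) {s : ℕ} (hs : s < M.L) :
    pubF M R (s + 1) = M.swE R s := by
  unfold pubF
  rw [if_neg (Nat.succ_ne_zero s)]
  funext x
  rw [Nat.add_sub_cancel, if_pos hs]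

/-- **The hard-wired contents**, uniformly in the index. -/
theorem WT.pubF (h : MPar A M) (hG : ∀ b, (M b).Good) (hR : RPar A (fun b => (M b).κ) l R)
    {i : β → ℕ} (hi : PT A i) :
    WT A (fun b => (M b).κ) l (fun b => H933.pubF (M b) (R b) (i b)) :=
  WT.ite (PT.eqNat hi (PT.const 0)) WT.one (WT.swE h hG hR (PT.sub hi (PT.const 1)))

/-- The state with full banks and the input `0`. -/
theorem SPar.start (h : MPar A M) : SPar A M (fun b => ⟨true, fun _ => false, 2 ^ (M b).k⟩) :=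
  ⟨PT.const true, PT.const false, h.k2⟩

end Cont

end Vale.Agent.P330.H933
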