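import Vale.Agent.P330.H933.PubJ
import Vale.Agent.P330.H743.Enc

/-!
# The base contents of the content program, in polynomial time
-/

namespace Vale.Agent.P330.H933

open Vale.Agent.Lib.PolyTime Vale.Agent.P330.H604 Vale.Agent.P330.H16 Vale.Agent.P330.H743

/-- The base contents of a tuple of contents, one by one. -/
theorem enc_eq_cfn (M : MP) {F : Type} [Field F] (c : Cont M.κ F) (i : Fin (nB M.k M.L)) :
    enc M.k M.L c i = cfn M c i := by
  have hi : (i : ℕ) < M.k + 2 * M.L + 6 := i.2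
  unfold H743.enc cfn
  split_ifs with h0 h1 h2 h3 h4 h5 h6
  · rw [h0, lst_z]; rfl
  · obtain ⟨j, hj⟩ : ∃ j, (i : ℕ) = 1 + j := ⟨(i : ℕ) - 1, by omega⟩
    rw [hj, lst_t _ (by omega), Nat.add_sub_cancel_left]
    rfl
  · rw [h2]
    exact lst_w _ false
  · rw [h3]
    exact lst_w _ true
  · obtain ⟨j, hj⟩ : ∃ j, (i : ℕ) = M.k + 4 + j := ⟨(i : ℕ) - (M.k + 4), by omega⟩
    rw [hj, lst_P0 _ (by omega), Nat.add_sub_cancel_left]
    rfl
  · obtain ⟨j, hj⟩ : ∃ j, (i : ℕ) = M.k + 4 + M.L + j := ⟨(i : ℕ) - (M.k + 4 + M.L), by omega⟩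
    rw [hj, lst_P1 _ (by omega), Nat.add_sub_cancel_left]
    rfl
  · rw [h6]
    exact lst_Q _ false
  · have h7 : (i : ℕ) = M.k + 4 + 2 * M.L + 1 := by omega
    rw [h7]
    exact lst_Q _ true

section

variable {α : Type} [Enc α] {A : Set Word} {l : α → ℕ} {J : α → Type}
  [∀ a, AddCommGroup (J a)] [∀ a, DistribMulAction (SL3 (l a)) (J a)] {N : JNum A l J}
  {β : Type} [Enc β] {u : β → α} {L : α → ℕ}

/-- Contents on `J`, from contents on the points. -/
theorem CT.ofWT' {κ : α → ℕ} (hκ : ∀ a, κ a = N.κ a) {psi : ∀ a, J a → V2 (κ a)}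
    (hpsi : ∀ a n, n < 2 ^ κ a → psi a (N.val a n) = pt (κ a) n)
    {w : ∀ b, Ct (κ (u b)) (Fl (L (u b)))}
    (hw : WT A (fun b => κ (u b)) (fun b => L (u b)) w) :
    CT N L u (fun b x => w b (psi (u b) x)) := by
  have h0 : PT A (fun p : β × ℕ => cod (L (u p.1)) (w p.1 (pt (κ (u p.1)) p.2))) := hw
  refine h0.congr fun p => ?_
  beta_reduce
  rw [← hκ, hpsi _ _ (Nat.mod_lt _ (by positivity)), pt_mod]

variable {M : α → MP} {R : ∀ a, RSys (M a).κ (Fl (L a))} {psi : ∀ a, J a → V2 (M a).κ}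

/-- **The base contents of the start state**, uniformly in the index. -/
theorem CT_start (h : MPar A M) (hG : ∀ a, (M a).Good) (hR : RPar A (fun a => (M a).κ) L R)
    (hκ : ∀ a, (M a).κ = N.κ a)
    (hpsi : ∀ a n, n < 2 ^ (M a).κ → psi a (N.val a n) = pt (M a).κ n) :
    CT N L (fun p : α × ℕ => p.1) (fun p x =>
      cfn (M p.1) ((M p.1).cont (R p.1) (Computes.s0 (M p.1))) p.2 (psi p.1 x)) := by
  have h1 : PT A (fun p : α × ℕ => p.1) := PT.fst'
  have h2 := WT.cfn (h.comp h1) (fun p => hG p.1) (hR.comp h1) ((SPar.start h).comp h1) PT.snd'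
  exact CT.ofWT' (κ := fun a => (M a).κ) hκ hpsi h2

/-- **The hard-wired contents**, uniformly in the index. -/
theorem CT_pub (h : MPar A M) (hG : ∀ a, (M a).Good) (hR : RPar A (fun a => (M a).κ) L R)
    (hκ : ∀ a, (M a).κ = N.κ a)
    (hpsi : ∀ a n, n < 2 ^ (M a).κ → psi a (N.val a n) = pt (M a).κ n) :
    CT N L (fun p : α × ℕ => p.1) (fun p x => pubF (M p.1) (R p.1) p.2 (psi p.1 x)) := by
  have h1 : PT A (fun p : α × ℕ => p.1) := PT.fst'
  have h2 := WT.pubF (h.comp h1) (fun p => hG p.1) (hR.comp h1) PT.snd'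
  exact CT.ofWT' (κ := fun a => (M a).κ) hκ hpsi h2

end

end Vale.Agent.P330.H933
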