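import Mathlib

/-!
# Explicit fields of characteristic two

The trinomial `X ^ (2 * 3 ^ l) + X ^ (3 ^ l) + 1` over the field with two elements is the
cyclotomic polynomial of order `3 ^ (l + 1)`; it is irreducible because `2` is a primitive root
modulo `3 ^ (l + 1)`.
-/

namespace Vale.Agent.P330.H933

open Polynomial

/-- The trinomial. -/
noncomputable def tri (l : ℕ) : (ZMod 2)[X] := X ^ (2 * 3 ^ l) + X ^ (3 ^ l) + 1

theorem tri_eq (l : ℕ) : tri l = cyclotomic (3 ^ (l + 1)) (ZMod 2) := by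
  have : Fact (Nat.Prime 3) := ⟨Nat.prime_three⟩
  rw [cyclotomic_prime_pow_eq_geom_sum Nat.prime_three, tri]
  simp only [Finset.sum_range_succ, Finset.sum_range_zero, pow_zero, pow_one, zero_add]
  rw [← pow_mul, mul_comm (3 ^ l) 2]
  ring

theorem lte4 (k : ℕ) : padicValNat 3 (4 ^ (3 ^ k) - 1) = k + 1 := by
  have : Fact (Nat.Prime 3) := ⟨Nat.prime_three⟩
  have h := padicValNat.pow_sub_pow (p := 3) (x := 4) (y := 1) (by norm_num) (by decide)
    (by norm_num) (by norm_num) (n := 3 ^ k) (by positivity)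
  rw [one_pow] at h
  rw [h, padicValNat.prime_pow]
  have : padicValNat 3 (4 - 1) = 1 := by
    have := padicValNat.self (p := 3) (by norm_num)
    simpa using this
  omega

theorem not_dvd4 (k : ℕ) : ¬ 3 ^ (k + 2) ∣ 4 ^ (3 ^ k) - 1 := by
  have : Fact (Nat.Prime 3) := ⟨Nat.prime_three⟩
  intro h
  have h0 : 4 ^ (3 ^ k) - 1 ≠ 0 := by
    have : 4 ^ 1 ≤ 4 ^ (3 ^ k) := Nat.pow_le_pow_right (by norm_num) (Nat.one_le_pow _ _ (by norm_num))
    omega
  have := (padicValNat_dvd_iff_le h0).1 h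
  rw [lte4] at this
  omega

theorem orderOf_two (l : ℕ) (h : Nat.Coprime 2 (3 ^ (l + 1))) :
    orderOf (ZMod.unitOfCoprime 2 h) = 2 * 3 ^ l := by
  have : Fact (Nat.Prime 3) := ⟨Nat.prime_three⟩
  have hval : ∀ m : ℕ, (ZMod.unitOfCoprime 2 h) ^ m = 1 ↔ 3 ^ (l + 1) ∣ 2 ^ m - 1 := by
    intro m
    rw [← Units.val_inj, Units.val_pow_eq_pow_val, ZMod.coe_unitOfCoprime, Units.val_one]
    have h1 : (1 : ℕ) ≤ 2 ^ m := Nat.one_le_two_pow
    have h2 : (((2 : ℕ) : ZMod (3 ^ (l + 1))) ^ m = 1) ↔ (((2 ^ m - 1 : ℕ) : ZMod (3 ^ (l + 1))) = 0) := by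
      rw [Nat.cast_sub h1, sub_eq_zero]
      push_cast
      rfl
    rw [h2, ZMod.natCast_eq_zero_iff]
  refine orderOf_eq_of_pow_and_pow_div_prime (by positivity) ?_ ?_
  · have := ZMod.pow_totient (ZMod.unitOfCoprime 2 h)
    rwa [Nat.totient_prime_pow_succ Nat.prime_three, mul_comm] at this
  · intro p hp hpd hpow
    rcases (hp.dvd_mul).1 hpd with h2 | h3
    · -- `p = 2`
      have hp2 : p = 2 := (Nat.prime_dvd_prime_iff_eq hp Nat.prime_two).1 h2
      subst hp2
      rw [Nat.mul_div_cancel_left _ (by norm_num), hval] at hpow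
      have h3 : 3 ∣ 2 ^ (3 ^ l) - 1 := (dvd_pow_self 3 (Nat.succ_ne_zero l)).trans hpow
      have h4 : 2 ^ (3 ^ l) % 3 = 2 := by
        have hodd : (3 ^ l) % 2 = 1 := by
          rw [Nat.pow_mod]; norm_num
        obtain ⟨t, ht⟩ : ∃ t, 3 ^ l = 2 * t + 1 := ⟨3 ^ l / 2, by omega⟩
        rw [ht, pow_succ, pow_mul, Nat.mul_mod, Nat.pow_mod]
        norm_num
      have h5 : 1 ≤ 2 ^ (3 ^ l) := Nat.one_le_two_pow
      omega
    · -- `p = 3`
      have hp3 : p = 3 := (Nat.prime_dvd_prime_iff_eq hp Nat.prime_three).1 (hp.dvd_of_dvd_pow h3)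
      subst hp3
      cases l with
      | zero =>
        simp at h3
      | succ k =>
        have e : 2 * 3 ^ (k + 1) / 3 = 2 * 3 ^ k := by
          rw [pow_succ, ← mul_assoc]
          exact Nat.mul_div_cancel _ (by norm_num)
        rw [e, hval, pow_mul] at hpow
        exact not_dvd4 k hpow

theorem natDegree_tri (l : ℕ) : (tri l).natDegree = 2 * 3 ^ l := by
  rw [tri_eq, natDegree_cyclotomic, Nat.totient_prime_pow_succ Nat.prime_three, mul_comm]

theorem monic_tri (l : ℕ) : (tri l).Monic := by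
  rw [tri_eq]
  exact cyclotomic.monic _ _

theorem irreducible_tri (l : ℕ) : Irreducible (tri l) := by
  have : Fact (Nat.Prime 2) := ⟨Nat.prime_two⟩
  have hn : ¬ 2 ∣ 3 ^ (l + 1) := by
    intro h
    have := Nat.Prime.dvd_of_dvd_pow Nat.prime_two h
    omega
  refine ZMod.irreducible_of_dvd_cyclotomic_of_natDegree hn (tri_eq l ▸ dvd_rfl) ?_
  rw [natDegree_tri, orderOf_two]

instance (l : ℕ) : Fact (Irreducible (tri l)) := ⟨irreducible_tri l⟩

/-- The field with `2 ^ (2 * 3 ^ l)` elements. -/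
abbrev Fl (l : ℕ) : Type := AdjoinRoot (tri l)

/-- The degree of the field. -/
def eF (l : ℕ) : ℕ := 2 * 3 ^ l

theorem eF_pos (l : ℕ) : 0 < eF l := by unfold eF; positivity

/-- The canonical generator. -/
noncomputable def th (l : ℕ) : Fl l := AdjoinRoot.root (tri l)

instance (l : ℕ) : CharP (Fl l) 2 :=
  charP_of_injective_algebraMap (algebraMap (ZMod 2) (Fl l)).injective 2

theorem th_tri (l : ℕ) : th l ^ (2 * 3 ^ l) = th l ^ (3 ^ l) + 1 := by
  have h := AdjoinRoot.eval₂_root (tri l)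
  unfold tri at h
  simp only [eval₂_add, eval₂_pow, eval₂_X, eval₂_one] at h
  have h4 : th l ^ (2 * 3 ^ l) + (th l ^ (3 ^ l) + 1) = 0 := by
    rw [← add_assoc]; exact h
  exact CharTwo.add_eq_zero.1 h4

end Vale.Agent.P330.H933
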