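import Vale.Agent.P330.H933.Fld1

/-!
# Explicit fields of characteristic two: numbers as names of the elements

The bits of a natural number are the coefficients of an element; addition is bitwise exclusive or,
multiplication is carry-less multiplication with reduction by the trinomial.
-/

namespace Vale.Agent.P330.H933

open Polynomial

/-- The polynomial whose coefficients are the bits of `n`. -/
noncomputable def bp (n : ℕ) : (ZMod 2)[X] :=
  ∑ i ∈ Finset.range n, if n.testBit i then X ^ i else 0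

theorem testBit_ge {n i : ℕ} (h : n ≤ i) : n.testBit i = false :=
  Nat.testBit_lt_two_pow (lt_of_lt_of_le Nat.lt_two_pow_self (Nat.pow_le_pow_right (by norm_num) h))

theorem coeff_bp (n i : ℕ) : (bp n).coeff i = if n.testBit i then 1 else 0 := by
  unfold bp
  rw [finsetSum_coeff]
  by_cases hi : i < n
  · rw [Finset.sum_eq_single i]
    · split_ifs <;> simp
    · intro j _ hj
      split_ifs
      · rw [coeff_X_pow, if_neg (Ne.symm hj)]
      · simp
    · intro h
      exact absurd (Finset.mem_range.2 hi) h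
  · rw [testBit_ge (not_lt.1 hi)]
    refine Finset.sum_eq_zero fun j hj => ?_
    have hj' := Finset.mem_range.1 hj
    split_ifs
    · rw [coeff_X_pow, if_neg (by omega)]
    · simp

theorem bp_xor (m n : ℕ) : bp (m ^^^ n) = bp m + bp n := by
  ext i
  rw [coeff_add, coeff_bp, coeff_bp, coeff_bp, Nat.testBit_xor]
  cases m.testBit i <;> cases n.testBit i <;> decide

theorem bp_zero : bp 0 = 0 := by ext i; rw [coeff_bp]; simp

theorem bp_pow (k : ℕ) : bp (2 ^ k) = X ^ k := by
  ext i
  rw [coeff_bp, coeff_X_pow, Nat.testBit_two_pow]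
  by_cases h : k = i
  · simp [h]
  · rw [if_neg (by simpa using h), if_neg (fun h' => h h'.symm)]

theorem bp_one : bp 1 = 1 := by simpa using bp_pow 0

theorem bp_double (n : ℕ) : bp (2 * n) = X * bp n := by
  ext i
  cases i with
  | zero =>
    rw [coeff_bp, coeff_X_mul_zero]
    simp
  | succ i =>
    rw [coeff_bp, coeff_X_mul, coeff_bp, Nat.testBit_succ, Nat.mul_div_cancel_left _ (by norm_num)]

theorem bp_half (n : ℕ) : bp n = (if n % 2 = 1 then 1 else 0) + X * bp (n / 2) := by
  ext i
  cases i with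
  | zero =>
    rw [coeff_bp, coeff_add, coeff_X_mul_zero, add_zero]
    by_cases h : n % 2 = 1
    · rw [if_pos h, coeff_one_zero, if_pos]
      simpa [Nat.testBit_zero] using h
    · rw [if_neg h, coeff_zero, if_neg]
      simpa [Nat.testBit_zero] using h
  | succ i =>
    rw [coeff_bp, coeff_add, coeff_X_mul, coeff_bp, Nat.testBit_succ]
    have : (if n % 2 = 1 then (1 : (ZMod 2)[X]) else 0).coeff (i + 1) = 0 := by
      split_ifs
      · rw [coeff_one, if_neg (by omega)]
      · simp
    rw [this, zero_add]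

theorem bp_inj {m n : ℕ} (h : bp m = bp n) : m = n := by
  refine Nat.eq_of_testBit_eq fun i => ?_
  have := congrArg (fun p => p.coeff i) h
  simp only [coeff_bp] at this
  cases hm : m.testBit i <;> cases hn : n.testBit i <;> simp_all

theorem degree_bp_lt {n e : ℕ} (h : n < 2 ^ e) : (bp n).degree < e := by
  rw [degree_lt_iff_coeff_zero]
  intro i hi
  rw [coeff_bp, Nat.testBit_lt_two_pow (lt_of_lt_of_le h (Nat.pow_le_pow_right (by norm_num) hi))]
  simp

variable (l : ℕ)

/-- The element named by a number. -/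
noncomputable def dec (n : ℕ) : Fl l := AdjoinRoot.mk (tri l) (bp n)

theorem dec_xor (m n : ℕ) : dec l (m ^^^ n) = dec l m + dec l n := by
  unfold dec; rw [bp_xor, map_add]

theorem dec_zero : dec l 0 = 0 := by unfold dec; rw [bp_zero, map_zero]

theorem dec_one : dec l 1 = 1 := by unfold dec; rw [bp_one, map_one]

theorem dec_pow (k : ℕ) : dec l (2 ^ k) = th l ^ k := by
  unfold dec th; rw [bp_pow, map_pow, AdjoinRoot.mk_X]

theorem dec_double (n : ℕ) : dec l (2 * n) = th l * dec l n := by
  unfold dec th; rw [bp_double, map_mul, AdjoinRoot.mk_X]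

theorem dec_half (n : ℕ) :
    dec l n = (if n % 2 = 1 then 1 else 0) + th l * dec l (n / 2) := by
  unfold dec th
  rw [bp_half n, map_add, map_mul, AdjoinRoot.mk_X]
  congr 1
  split_ifs <;> simp

/-- The number of the trinomial. -/
def tw : ℕ := 2 ^ eF l ^^^ (2 ^ (3 ^ l) ^^^ 1)

theorem dec_tw : dec l (tw l) = 0 := by
  unfold tw
  rw [dec_xor, dec_xor, dec_pow, dec_pow, dec_one, eF, th_tri]
  exact CharTwo.add_self_eq_zero _

theorem pow_lt_eF : 3 ^ l < eF l := by
  unfold eF
  have : 0 < 3 ^ l := by positivity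
  omega

theorem testBit_tw {i : ℕ} (h : eF l ≤ i) : (tw l).testBit i = decide (i = eF l) := by
  have h1 := pow_lt_eF l
  have h2 := eF_pos l
  unfold tw
  rw [Nat.testBit_xor, Nat.testBit_xor, Nat.testBit_two_pow, Nat.testBit_two_pow]
  have h3 : decide (3 ^ l = i) = false := by
    rw [decide_eq_false_iff_not]; omega
  have h4 : (1 : ℕ).testBit i = false := testBit_ge (by omega)
  rw [h3, h4]
  by_cases h5 : eF l = i
  · simp [h5]
  · have h6 : ¬ i = eF l := fun h => h5 h.symm
    simp [h5, h6]

/-- Reduction of a number with at most `e + 1` bits. -/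
def red (n : ℕ) : ℕ := if 2 ^ eF l ≤ n then n ^^^ tw l else n

theorem dec_red (n : ℕ) : dec l (red l n) = dec l n := by
  unfold red
  split_ifs
  · rw [dec_xor, dec_tw, add_zero]
  · rfl

theorem red_lt {n : ℕ} (h : n < 2 ^ (eF l + 1)) : red l n < 2 ^ eF l := by
  unfold red
  split_ifs with h1
  · refine Nat.lt_pow_two_of_testBit _ fun i hi => ?_
    rw [Nat.testBit_xor, testBit_tw l hi]
    rcases eq_or_lt_of_le hi with h2 | h2
    · subst h2
      have h3 : n.testBit (eF l) = true := by
        have h4 : n / 2 ^ eF l = 1 := by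
          have h5 : n / 2 ^ eF l < 2 := by
            rw [Nat.div_lt_iff_lt_mul (by positivity)]
            rw [pow_succ] at h; omega
          have h6 : 0 < n / 2 ^ eF l := Nat.div_pos h1 (by positivity)
          omega
        rw [Nat.testBit_eq_decide_div_mod_eq, h4]
        decide
      simp [h3]
    · have h3 : n.testBit i = false :=
        Nat.testBit_lt_two_pow (lt_of_lt_of_le h (Nat.pow_le_pow_right (by norm_num) h2))
      have h4 : decide (i = eF l) = false := by
        rw [decide_eq_false_iff_not]; omega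
      simp [h3, h4]
  · exact not_le.1 h1

theorem xor_lt {m n e : ℕ} (hm : m < 2 ^ e) (hn : n < 2 ^ e) : m ^^^ n < 2 ^ e :=
  Nat.xor_lt_two_pow hm hn

/-- One step of the multiplication. -/
def mst (p : ℕ × ℕ × ℕ) : ℕ × ℕ × ℕ :=
  (red l (2 * p.1), p.2.1 / 2, if p.2.1 % 2 = 1 then p.2.2 ^^^ p.1 else p.2.2)

/-- Multiplication on names. -/
def kmul (a b : ℕ) : ℕ := ((mst l)^[eF l] (a, b, 0)).2.2

theorem mst_inv (a b : ℕ) (ha : a < 2 ^ eF l) (j : ℕ) :
    ((mst l)^[j] (a, b, 0)).1 < 2 ^ eF l ∧ ((mst l)^[j] (a, b, 0)).2.1 = b / 2 ^ j ∧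
      ((mst l)^[j] (a, b, 0)).2.2 < 2 ^ eF l ∧
      dec l ((mst l)^[j] (a, b, 0)).2.2 + dec l ((mst l)^[j] (a, b, 0)).1 * dec l (b / 2 ^ j) =
        dec l a * dec l b := by
  induction j with
  | zero =>
    refine ⟨ha, by simp, by simp, ?_⟩
    simp [dec_zero]
  | succ j ih =>
    obtain ⟨h1, h2, h3, h4⟩ := ih
    rw [Function.iterate_succ_apply']
    set s := (mst l)^[j] (a, b, 0) with hs
    have h5 : b / 2 ^ j / 2 = b / 2 ^ (j + 1) := by
      rw [Nat.div_div_eq_div_mul, pow_succ]
    refine ⟨?_, ?_, ?_, ?_⟩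
    · unfold mst
      exact red_lt l (by rw [pow_succ]; omega)
    · unfold mst
      simp only
      rw [h2, h5]
    · unfold mst
      simp only
      split_ifs
      · exact xor_lt h3 h1
      · exact h3
    · unfold mst
      simp only
      rw [dec_red, dec_double, h2, ← h5]
      rw [dec_half l (b / 2 ^ j)] at h4
      rw [← h4]
      split_ifs with h6
      · rw [dec_xor]; ring
      · ring

theorem kmul_lt {a b : ℕ} (ha : a < 2 ^ eF l) : kmul l a b < 2 ^ eF l :=
  (mst_inv l a b ha _).2.2.1

theorem dec_kmul {a b : ℕ} (ha : a < 2 ^ eF l) (hb : b < 2 ^ eF l) :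
    dec l (kmul l a b) = dec l a * dec l b := by
  have h := (mst_inv l a b ha (eF l)).2.2.2
  rw [Nat.div_eq_of_lt hb, dec_zero, mul_zero, add_zero] at h
  exact h

theorem dec_inj {m n : ℕ} (hm : m < 2 ^ eF l) (hn : n < 2 ^ eF l) (h : dec l m = dec l n) :
    m = n := by
  apply bp_inj
  have h1 : tri l ∣ bp m - bp n := by
    rw [← AdjoinRoot.mk_eq_mk]; exact h
  have h2 : (bp m - bp n).degree < (tri l).degree := by
    rw [degree_eq_natDegree (monic_tri l).ne_zero, natDegree_tri]
    refine lt_of_le_of_lt (degree_sub_le _ _) (max_lt ?_ ?_)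
    · exact_mod_cast degree_bp_lt hm
    · exact_mod_cast degree_bp_lt hn
  by_contra h3
  have h4 := degree_le_of_dvd h1 (sub_ne_zero.2 h3)
  exact absurd h2 (not_lt.2 h4)

noncomputable instance : Fintype (Fl l) := by
  haveI := (monic_tri l).finite_adjoinRoot
  haveI : Finite (AdjoinRoot (tri l)) := Module.finite_of_finite (ZMod 2)
  exact Fintype.ofFinite _

theorem card_Fl : Fintype.card (Fl l) = 2 ^ eF l := by
  have h1 : Module.finrank (ZMod 2) (Fl l) = eF l := by
    have := (AdjoinRoot.powerBasis (monic_tri l).ne_zero).finrank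
    rw [this, AdjoinRoot.powerBasis_dim, natDegree_tri]
    rfl
  have h2 := Module.card_eq_pow_finrank (K := ZMod 2) (V := Fl l)
  rw [ZMod.card, h1] at h2
  exact h2

theorem exists_code (x : Fl l) : ∃ n < 2 ^ eF l, dec l n = x := by
  have h : Function.Bijective (fun i : Fin (2 ^ eF l) => dec l i) := by
    rw [Fintype.bijective_iff_injective_and_card]
    refine ⟨fun i j hij => Fin.ext (dec_inj l i.2 j.2 hij), ?_⟩
    rw [Fintype.card_fin, card_Fl]
  obtain ⟨i, hi⟩ := h.2 x
  exact ⟨i, i.2, hi⟩

/-- The name of an element. -/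
noncomputable def cod (x : Fl l) : ℕ := (exists_code l x).choose

variable {l}

theorem cod_lt (x : Fl l) : cod l x < 2 ^ eF l := (exists_code l x).choose_spec.1

theorem dec_cod (x : Fl l) : dec l (cod l x) = x := (exists_code l x).choose_spec.2

theorem cod_dec {n : ℕ} (h : n < 2 ^ eF l) : cod l (dec l n) = n :=
  dec_inj l (cod_lt _) h (dec_cod _)

theorem cod_inj {x y : Fl l} (h : cod l x = cod l y) : x = y := by
  rw [← dec_cod x, h, dec_cod]

theorem cod_eq_iff {x : Fl l} {n : ℕ} (h : n < 2 ^ eF l) : cod l x = n ↔ x = dec l n :=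
  ⟨fun h' => by rw [← h', dec_cod], fun h' => by rw [h', cod_dec h]⟩

theorem cod_add (x y : Fl l) : cod l (x + y) = cod l x ^^^ cod l y := by
  rw [cod_eq_iff (xor_lt (cod_lt x) (cod_lt y)), dec_xor, dec_cod, dec_cod]

theorem cod_mul (x y : Fl l) : cod l (x * y) = kmul l (cod l x) (cod l y) := by
  rw [cod_eq_iff (kmul_lt l (cod_lt x)), dec_kmul l (cod_lt x) (cod_lt y), dec_cod, dec_cod]

theorem cod_zero : cod l (0 : Fl l) = 0 := by
  rw [cod_eq_iff (by positivity), dec_zero]

theorem cod_one : cod l (1 : Fl l) = 1 := by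
  rw [cod_eq_iff (Nat.one_lt_two_pow (eF_pos l).ne'), dec_one]

theorem cod_th_pow {k : ℕ} (h : k < eF l) : cod l (th l ^ k) = 2 ^ k := by
  rw [cod_eq_iff (Nat.pow_lt_pow_right (by norm_num) h), dec_pow]

end Vale.Agent.P330.H933
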