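import Vale.Agent.P330.H933.Fld3

/-!
# Explicit fields of characteristic two: subfields and genericity
-/

namespace Vale.Agent.P330.H933

open Polynomial
open Vale.Agent.Lib.PolyTime

/-! ### Coordinates with values in the prime field -/

/-- The coefficient of `th l ^ i`. -/
noncomputable def coefF (l i : ℕ) : Fl l →ₗ[ZMod 2] ZMod 2 :=
  AddMonoidHom.toZModLinearMap 2
    { toFun := fun x => if bitF l i x = true then 1 else 0
      map_zero' := by rw [bitF_zero]; rfl
      map_add' := fun x y => by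
        rw [bitF_add]
        cases bitF l i x <;> cases bitF l i y <;> decide }

theorem coefF_apply (l i : ℕ) (x : Fl l) : coefF l i x = if bitF l i x = true then 1 else 0 := rfl

theorem coefF_th_pow (l i : ℕ) {k : ℕ} (h : k < eF l) :
    coefF l i (th l ^ k) = if k = i then 1 else 0 := by
  rw [coefF_apply, bitF_th_pow l i h]
  by_cases hk : k = i <;> simp [hk]

theorem coefF_ext {l : ℕ} {x y : Fl l} (h : ∀ i < eF l, coefF l i x = coefF l i y) : x = y := by
  refine bitF_ext fun i hi => ?_
  have := h i hi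
  rw [coefF_apply, coefF_apply] at this
  cases hx : bitF l i x <;> cases hy : bitF l i y <;> simp_all

theorem exists_coefF_ne {l : ℕ} {x : Fl l} (h : x ≠ 0) : ∃ i < eF l, coefF l i x = 1 := by
  by_contra hc
  push Not at hc
  apply h
  refine coefF_ext fun i hi => ?_
  have h1 := hc i hi
  rw [map_zero]
  rw [coefF_apply] at h1 ⊢
  split_ifs at h1 ⊢ with h2
  · exact absurd rfl h1
  · rfl

theorem eq_sum_coefF {l : ℕ} (x : Fl l) :
    x = ∑ i ∈ Finset.range (eF l), coefF l i x • th l ^ i := by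
  conv_lhs => rw [eq_sum_bitF x]
  refine Finset.sum_congr rfl fun i _ => ?_
  rw [coefF_apply]
  split_ifs <;> simp

/-! ### Embeddings -/

variable {j l : ℕ}

theorem emb_aux (h : j ≤ l) :
    (tri j).eval₂ (algebraMap (ZMod 2) (Fl l)) (th l ^ 3 ^ (l - j)) = 0 := by
  have e : tri j = X ^ (2 * 3 ^ j) + X ^ (3 ^ j) + 1 := rfl
  have h1 : 3 ^ (l - j) * 3 ^ j = 3 ^ l := by rw [← pow_add, Nat.sub_add_cancel h]
  have h2 : 3 ^ (l - j) * (2 * 3 ^ j) = 2 * 3 ^ l := by rw [← h1]; ring
  rw [e, eval₂_add, eval₂_add, eval₂_pow, eval₂_pow, eval₂_X, eval₂_one, ← pow_mul, ← pow_mul,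
    h1, h2, th_tri l, add_assoc]
  exact CharTwo.add_self_eq_zero _

/-- The embedding of `Fl j` into `Fl l`. -/
noncomputable def emb (h : j ≤ l) : Fl j →+* Fl l :=
  AdjoinRoot.lift (algebraMap (ZMod 2) (Fl l)) (th l ^ 3 ^ (l - j)) (emb_aux h)

theorem emb_th (h : j ≤ l) : emb h (th j) = th l ^ 3 ^ (l - j) := AdjoinRoot.lift_root _

theorem emb_eq (h : j ≤ l) (x : Fl j) :
    emb h x = ∑ i ∈ Finset.range (eF j), if bitF j i x then (th l ^ 3 ^ (l - j)) ^ i else 0 := by
  conv_lhs => rw [eq_sum_bitF x, map_sum]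
  refine Finset.sum_congr rfl fun i _ => ?_
  split_ifs
  · rw [map_pow, emb_th]
  · rw [map_zero]

theorem emb_injective (h : j ≤ l) : Function.Injective (emb h) := (emb h).injective

theorem emb_trans {i : ℕ} (h : j ≤ l) (h' : i ≤ j) (x : Fl i) :
    emb h (emb h' x) = emb (h'.trans h) x := by
  have : (emb h).comp (emb h') = emb (h'.trans h) := by
    apply AdjoinRoot.ringHom_ext
    · exact Subsingleton.elim _ _
    · have h1 : 3 ^ (l - j) * 3 ^ (j - i) = 3 ^ (l - i) := by
        rw [← pow_add]; congr 1; omega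
      change emb h (emb h' (th i)) = emb (h'.trans h) (th i)
      rw [emb_th, map_pow, emb_th, emb_th, ← pow_mul, h1]
  exact DFunLike.congr_fun this x

/-! ### Genericity -/

theorem eF_eq (h : j ≤ l) : eF l = eF j * 3 ^ (l - j) := by
  unfold eF
  have h1 : 3 ^ (l - j) * 3 ^ j = 3 ^ l := by rw [← pow_add, Nat.sub_add_cancel h]
  rw [← h1]; ring

theorem coefF_emb_mul (h : j ≤ l) (x : Fl j) {b : ℕ} (hb : b < 3 ^ (l - j)) {a' b' : ℕ}
    (hb' : b' < 3 ^ (l - j)) :
    coefF l (a' * 3 ^ (l - j) + b') (emb h x * th l ^ b) = if b = b' then coefF j a' x else 0 := by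
  set m := 3 ^ (l - j) with hm
  rw [emb_eq, Finset.sum_mul, map_sum]
  have key : ∀ a ∈ Finset.range (eF j),
      coefF l (a' * m + b') ((if bitF j a x then (th l ^ m) ^ a else 0) * th l ^ b) =
        if a = a' then (if b = b' then coefF j a' x else 0) else 0 := by
    intro a ha
    have ha' := Finset.mem_range.1 ha
    have h1 : m * a + b < eF l := by
      rw [eF_eq h, ← hm]
      calc m * a + b < m * a + m := by omega
        _ = m * (a + 1) := by ring
        _ ≤ m * eF j := Nat.mul_le_mul_left _ ha'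
        _ = eF j * m := by ring
    have h2 : (m * a + b = a' * m + b') ↔ (a = a' ∧ b = b') := by
      constructor
      · intro h3
        have h4 : b = b' := by
          have := congrArg (· % m) h3
          simp only [Nat.mul_add_mod, Nat.mod_eq_of_lt hb] at this
          rw [mul_comm a' m, Nat.mul_add_mod, Nat.mod_eq_of_lt hb'] at this
          exact this
        refine ⟨?_, h4⟩
        have h5 : m * a = m * a' := by rw [mul_comm a' m] at h3; omega
        exact Nat.eq_of_mul_eq_mul_left (by omega) h5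
      · rintro ⟨rfl, rfl⟩
        ring
    split_ifs with h3 h4 h5 h5
    · rw [← pow_mul, ← pow_add, coefF_th_pow l _ h1, if_pos (h2.2 ⟨h4, h5⟩), ← h4, coefF_apply,
        if_pos h3]
    · rw [← pow_mul, ← pow_add, coefF_th_pow l _ h1, if_neg (fun h6 => h5 (h2.1 h6).2)]
    · rw [← pow_mul, ← pow_add, coefF_th_pow l _ h1, if_neg (fun h6 => h4 (h2.1 h6).1)]
    · rw [zero_mul, map_zero, ← h5, coefF_apply, if_neg h3]
    · rw [zero_mul, map_zero]
    · rw [zero_mul, map_zero]
  rw [Finset.sum_congr rfl key, Finset.sum_ite_eq']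
  split_ifs with h3 h4
  · rfl
  · rfl
  · rename_i h4
    have h5 : eF j ≤ a' := by simpa using h3
    rw [coefF_apply]
    unfold bitF
    rw [Nat.testBit_lt_two_pow (lt_of_lt_of_le (cod_lt x)
      (Nat.pow_le_pow_right (by norm_num) h5))]
    rfl
  · rfl

/-- The generator is not a root of a nonzero polynomial of small degree over the subfield. -/
theorem eval_ne_zero (h : j ≤ l) {P : (Fl j)[X]} (hP : P ≠ 0) (hd : P.natDegree < 3 ^ (l - j)) :
    P.eval₂ (emb h) (th l) ≠ 0 := by
  intro h0
  obtain ⟨a, ha, h1⟩ := exists_coefF_ne (leadingCoeff_ne_zero.2 hP)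
  rw [eval₂_eq_sum_range] at h0
  have h2 := congrArg (coefF l (a * 3 ^ (l - j) + P.natDegree)) h0
  rw [map_sum, map_zero, Finset.sum_eq_single P.natDegree] at h2
  · rw [coefF_emb_mul h _ hd hd, if_pos rfl] at h2
    rw [leadingCoeff, h2] at h1
    exact absurd h1 (by decide)
  · intro b hb hne
    have hb' : b < 3 ^ (l - j) := by
      have := Finset.mem_range.1 hb
      omega
    rw [coefF_emb_mul h _ hb' hd, if_neg hne]
  · intro h3
    exact absurd (Finset.mem_range.2 (Nat.lt_succ_self _)) h3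

/-- Several variables: the powers `th ^ (D ^ i)` are generic over the subfield. -/
theorem mvEval_ne_zero (h : j ≤ l) {r D : ℕ} {P : MvPolynomial (Fin r) (Fl j)} (hP : P ≠ 0)
    (hd : ∀ i, P.degreeOf i < D) (hD : D ^ r ≤ 3 ^ (l - j)) :
    P.eval₂ (emb h) (fun i : Fin r => th l ^ D ^ (i : ℕ)) ≠ 0 := by
  classical
  have hlt : ∀ m ∈ P.support, ∀ i, m i < D := fun m hm i =>
    lt_of_le_of_lt (MvPolynomial.monomial_le_degreeOf i hm) (hd i)
  -- the exponent of the monomial `m`
  let κ : (Fin r →₀ ℕ) → ℕ := fun m => ∑ i, m i * D ^ (i : ℕ)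
  have hκ : ∀ m ∈ P.support, κ m < D ^ r := by
    intro m hm
    have := (finFunctionFinEquiv (fun i => (⟨m i, hlt m hm i⟩ : Fin D))).2
    rwa [finFunctionFinEquiv_apply] at this
  have hinj : ∀ m ∈ P.support, ∀ m' ∈ P.support, κ m = κ m' → m = m' := by
    intro m hm m' hm' he
    have h1 : (finFunctionFinEquiv (fun i => (⟨m i, hlt m hm i⟩ : Fin D))) =
        finFunctionFinEquiv (fun i => (⟨m' i, hlt m' hm' i⟩ : Fin D)) := by
      apply Fin.ext
      rw [finFunctionFinEquiv_apply, finFunctionFinEquiv_apply]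
      exact he
    have h2 := finFunctionFinEquiv.injective h1
    ext i
    exact congrArg Fin.val (congrFun h2 i)
  let Q : (Fl j)[X] := ∑ m ∈ P.support, monomial (κ m) (P.coeff m)
  obtain ⟨m0, hm0⟩ := MvPolynomial.support_nonempty.2 hP
  have hQ0 : Q ≠ 0 := by
    intro h0
    have h1 := congrArg (fun q => q.coeff (κ m0)) h0
    simp only [Q, finsetSum_coeff, coeff_monomial, coeff_zero] at h1
    rw [Finset.sum_eq_single m0] at h1
    · rw [if_pos rfl] at h1
      exact (MvPolynomial.mem_support_iff.1 hm0) h1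
    · intro m hm hne
      rw [if_neg (fun h2 => hne (hinj m hm m0 hm0 h2))]
    · intro h2
      exact absurd hm0 h2
  have hQd : Q.natDegree < 3 ^ (l - j) := by
    have hD0 : 0 < D ^ r := lt_of_le_of_lt (Nat.zero_le _) (hκ m0 hm0)
    refine lt_of_lt_of_le ?_ hD
    have h1 : Q.natDegree ≤ D ^ r - 1 := by
      refine natDegree_sum_le_of_forall_le _ _ fun m hm => ?_
      have := hκ m hm
      exact (natDegree_monomial_le _).trans (by omega)
    omega
  have hQe : Q.eval₂ (emb h) (th l) = P.eval₂ (emb h) (fun i : Fin r => th l ^ D ^ (i : ℕ)) := by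
    rw [MvPolynomial.eval₂_eq']
    simp only [Q, eval₂_finsetSum, eval₂_monomial]
    refine Finset.sum_congr rfl fun m _ => ?_
    congr 1
    rw [← Finset.prod_pow_eq_pow_sum]
    refine Finset.prod_congr rfl fun i _ => ?_
    rw [← pow_mul, mul_comm]
  rw [← hQe]
  exact eval_ne_zero h hQ0 hQd

/-! ### Polynomial time -/

namespace FT

variable {α : Type*} [Enc α] {A : Set Word}

/-- Embeddings are computable in polynomial time. -/
theorem emb {j l : α → ℕ} (hj : LPar A j) (hl : LPar A l) (h : ∀ a, j a ≤ l a)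
    {f : ∀ a, Fl (j a)} (hf : FT A j f) : FT A l (fun a => emb (h a) (f a)) := by
  have h1 : PBd (fun a => l a - j a) := by
    have h2 : PBd l := hl.bd.mono fun a => (Nat.lt_pow_self (by norm_num)).le
    exact h2.mono fun a => Nat.sub_le _ _
  have h3 : PT A (fun a => 3 ^ (l a - j a)) := PT.pow (PT.const 3) (PT.sub hl.pt hj.pt) h1
  have hl' : LPar A (fun p : α × ℕ => l p.1) := hl.comp PT.fst'
  have hf' : FT A (fun p : α × ℕ => j p.1) (fun p => f p.1) := hf.comp PT.fst'
  have h5 : PT A (fun p : α × ℕ => 3 ^ (l p.1 - j p.1)) := h3.comp PT.fst'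
  refine (sum_range hl hj.eF hj.eFbd (F := fun a i => if bitF (j a) i (f a) then
    (H933.th (l a) ^ 3 ^ (l a - j a)) ^ i else 0) ?_).congr fun a => (emb_eq (h a) (f a)).symm
  refine ite ?_ (pow hl' (pow hl' (th hl') h5) PT.snd') zero
  refine (PT.bitF (i := fun p : α × ℕ => p.2) hf' PT.snd').congr fun p => ?_
  simp

end FT

end Vale.Agent.P330.H933
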