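import Vale.Agent.P330.H933.Fld4
import Vale.Agent.Lib.PolyTime.Lists2
import Mathlib.LinearAlgebra.Matrix.GeneralLinearGroup.Card

/-!
# Matrices over the explicit fields, in polynomial time

`MT A l n M` says that the entries of the `n a × n a` matrix `M a` over `Fl (l a)` are computable
in polynomial time.  Inverses are computed as powers.
-/

namespace Vale.Agent.P330.H933

open Function
open Vale.Agent.Lib.PolyTime

/-! ### Sums of numbers by exclusive or -/

/-- Exclusive or of `f 0, …, f (n-1)`. -/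
def xs (n : ℕ) (f : ℕ → ℕ) : ℕ := Nat.rec (motive := fun _ => ℕ) 0 (fun k s => s ^^^ f k) n

theorem xs_succ (n : ℕ) (f : ℕ → ℕ) : xs (n + 1) f = xs n f ^^^ f n := rfl

theorem xs_lt {n B : ℕ} {f : ℕ → ℕ} (h : ∀ k, f k < 2 ^ B) : xs n f < 2 ^ B := by
  induction n with
  | zero => exact Nat.two_pow_pos B
  | succ n ih => exact Nat.xor_lt_two_pow ih (h n)

theorem xs_congr {n : ℕ} {f g : ℕ → ℕ} (h : ∀ k < n, f k = g k) : xs n f = xs n g := by
  induction n with
  | zero => rfl
  | succ n ih =>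
    rw [xs_succ, xs_succ, ih fun k hk => h k (by omega), h n (by omega)]

theorem xs_cod {l n : ℕ} (f : ℕ → Fl l) :
    xs n (fun k => cod l (f k)) = cod l (∑ k ∈ Finset.range n, f k) := by
  induction n with
  | zero => rw [Finset.range_zero, Finset.sum_empty, cod_zero]; rfl
  | succ n ih => rw [xs_succ, ih, Finset.sum_range_succ, cod_add]

variable {α : Type*} [Enc α] {A : Set Word}

theorem PT.xs {n : α → ℕ} {f : α → ℕ → ℕ} (hn : PT A n) (hnb : PBd n)
    (hf : PT A (fun p : α × ℕ => f p.1 p.2)) {b : α → ℕ} (hb : PBd b)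
    (hlt : ∀ a k, f a k < 2 ^ b a) : PT A (fun a => xs (n a) (f a)) := by
  have h1 : PT A (fun p : α × ℕ × ℕ => f p.1 p.2.1) :=
    PT.comp (g := fun p : α × ℕ => f p.1 p.2) (f := fun p : α × ℕ × ℕ => (p.1, p.2.1))
      hf (PT.fst'.pair PT.snd'.fst)
  refine PT.natRec (init := fun _ => 0) (step := fun a k s => s ^^^ f a k) hn hnb
    (PT.const 0) (PT.natXor PT.snd'.snd h1) hb fun a j _ => ?_
  exact esize_nat_le (xs_lt (hlt a))

/-! ### Tables -/

/-- The table of a function of two arguments. -/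
def tab (n : ℕ) (f : ℕ → ℕ → ℕ) : List (List ℕ) :=
  (List.range n).map fun i => (List.range n).map fun j => f i j

/-- Reading of a table. -/
def rd (T : List (List ℕ)) (i j : ℕ) : ℕ := (T.getD i []).getD j 0

theorem rd_tab {n i j : ℕ} (f : ℕ → ℕ → ℕ) (hi : i < n) (hj : j < n) : rd (tab n f) i j = f i j := by
  unfold rd tab
  simp [List.getD_eq_getElem?_getD, hi, hj]

theorem rd_tab' {n i j : ℕ} (f : ℕ → ℕ → ℕ) (h : ¬ (i < n ∧ j < n)) : rd (tab n f) i j = 0 := by
  unfold rd tab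
  by_cases hi : i < n
  · have hj : n ≤ j := by
      by_contra h'
      exact h ⟨hi, not_le.1 h'⟩
    simp [List.getD_eq_getElem?_getD, hi, hj]
  · simp [List.getD_eq_getElem?_getD, not_lt.1 hi]

theorem tab_congr {n : ℕ} {f g : ℕ → ℕ → ℕ} (h : ∀ i < n, ∀ j < n, f i j = g i j) :
    tab n f = tab n g := by
  unfold tab
  refine List.map_congr_left fun i hi => List.map_congr_left fun j hj => ?_
  exact h i (List.mem_range.1 hi) j (List.mem_range.1 hj)

theorem PT.rd {T : α → List (List ℕ)} {i j : α → ℕ} (hT : PT A T) (hi : PT A i) (hj : PT A j) :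
    PT A (fun a => rd (T a) (i a) (j a)) :=
  PT.getD (PT.getD hT hi (PT.const [])) hj (PT.const 0)

theorem PT.tab {n : α → ℕ} {f : α → ℕ → ℕ → ℕ} (hn : PT A n) (hnb : PBd n)
    (hf : PT A (fun p : α × ℕ × ℕ => f p.1 p.2.1 p.2.2)) : PT A (fun a => tab (n a) (f a)) := by
  have h1 : PT A (fun p : (α × ℕ) × ℕ => f p.1.1 p.1.2 p.2) :=
    PT.comp (g := fun p : α × ℕ × ℕ => f p.1 p.2.1 p.2.2)
      (f := fun p : (α × ℕ) × ℕ => (p.1.1, p.1.2, p.2)) hf
      (PT.fst'.fst.pair (PT.fst'.snd.pair PT.snd'))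
  have hn' : PT A (fun p : α × ℕ => n p.1) := hn.comp PT.fst'
  have hnb' : PBd (fun p : α × ℕ => n p.1) := PBd.comp (b := n) hnb (PT.fst' (A := A))
  refine PT.map (l := fun a => List.range (n a))
    (f := fun a i => (List.range (n a)).map fun j => f a i j) (PT.range hn hnb) ?_
  exact PT.map (l := fun p : α × ℕ => List.range (n p.1))
    (f := fun p j => f p.1 p.2 j) (PT.range hn' hnb') h1

theorem rd_le_esize (T : List (List ℕ)) (i j : ℕ) : esize (rd T i j) ≤ esize T := by
  have h1 : ∀ (L : List ℕ) (j : ℕ), esize (L.getD j 0) ≤ esize L := by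
    intro L j
    rw [List.getD_eq_getElem?_getD]
    rcases h : L[j]? with _ | x
    · simp only [Option.getD_none]
      exact (esize_nat_le_self 0).trans (Nat.zero_le _)
    · simp only [Option.getD_some]
      exact esize_le_of_mem (List.mem_of_getElem? h)
  have h2 : ∀ (T : List (List ℕ)) (i : ℕ), esize (T.getD i []) ≤ esize T := by
    intro L j
    rw [List.getD_eq_getElem?_getD]
    rcases h : L[j]? with _ | x
    · simp only [Option.getD_none]
      rw [esize_list_nil]
      exact Nat.zero_le _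
    · simp only [Option.getD_some]
      exact esize_le_of_mem (List.mem_of_getElem? h)
  exact (h1 _ _).trans (h2 _ _)

/-! ### Products of tables -/

/-- Product of two tables. -/
def mulT (l n : ℕ) (S T : List (List ℕ)) : List (List ℕ) :=
  tab n fun i j => xs n fun k => kmul l (rd S i k) (rd T k j)

theorem PT.mulT {l n : α → ℕ} {S T : α → List (List ℕ)} (hl : LPar A l) (hn : PT A n)
    (hnb : PBd n) (hS : PT A S) (hT : PT A T) : PT A (fun a => mulT (l a) (n a) (S a) (T a)) := by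
  have h3 : PT A (fun p : (α × ℕ × ℕ) × ℕ => p.1.1) := PT.fst'.fst
  have hl' : LPar A (fun p : (α × ℕ × ℕ) × ℕ => l p.1.1) := hl.comp h3
  have hS' : PT A (fun p : (α × ℕ × ℕ) × ℕ => S p.1.1) := hS.comp h3
  have hT' : PT A (fun p : (α × ℕ × ℕ) × ℕ => T p.1.1) := hT.comp h3
  have hn' : PT A (fun p : α × ℕ × ℕ => n p.1) := hn.comp PT.fst'
  have hnb' : PBd (fun p : α × ℕ × ℕ => n p.1) := PBd.comp (b := n) hnb (PT.fst' (A := A))
  refine PT.tab hn hnb (f := fun a i j => H933.xs (n a) fun k =>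
    H933.kmul (l a) (H933.rd (S a) i k) (H933.rd (T a) k j)) ?_
  have hb : PBd (fun a => esize (S a) + 2 * H933.eF (l a) + 1) := by
    have h1 := hS.pbd
    have h2 := hl.eFbd
    fun_prop
  have hb' : PBd (fun p : α × ℕ × ℕ => esize (S p.1) + 2 * H933.eF (l p.1) + 1) :=
    PBd.comp (b := fun a => esize (S a) + 2 * H933.eF (l a) + 1) hb (PT.fst' (A := A))
  refine PT.xs (f := fun (p : α × ℕ × ℕ) k =>
    H933.kmul (l p.1) (H933.rd (S p.1) p.2.1 k) (H933.rd (T p.1) k p.2.2)) hn' hnb' ?_ hb' ?_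
  · exact PT.kmul hl'.pt hl'.bd (PT.rd hS' PT.fst'.snd.fst PT.snd')
      (PT.rd hT' PT.snd' PT.fst'.snd.snd)
  · intro p k
    refine lt_of_lt_of_le (lt_two_pow_esize _) (Nat.pow_le_pow_right (by norm_num) ?_)
    have h1 := esize_kmul_le (l p.1) (H933.rd (S p.1) p.2.1 k) (H933.rd (T p.1) k p.2.2)
    have h2 := rd_le_esize (S p.1) p.2.1 k
    omega

/-! ### Tables of matrices -/

/-- The code of an entry; zero outside. -/
noncomputable def ent {l n : ℕ} (M : Matrix (Fin n) (Fin n) (Fl l)) (i j : ℕ) : ℕ :=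
  if h : i < n ∧ j < n then cod l (M ⟨i, h.1⟩ ⟨j, h.2⟩) else 0

theorem ent_fin {l n : ℕ} (M : Matrix (Fin n) (Fin n) (Fl l)) (i j : Fin n) :
    ent M i j = cod l (M i j) := by
  unfold ent
  rw [dif_pos ⟨i.2, j.2⟩]

theorem ent_lt {l n : ℕ} (M : Matrix (Fin n) (Fin n) (Fl l)) (i j : ℕ) :
    ent M i j < 2 ^ eF l := by
  unfold ent
  split_ifs
  · exact cod_lt _
  · positivity

theorem ent_ext {l n : ℕ} {M N : Matrix (Fin n) (Fin n) (Fl l)}
    (h : ∀ i < n, ∀ j < n, ent M i j = ent N i j) : M = N := by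
  ext i j
  apply cod_inj
  rw [← ent_fin, ← ent_fin]
  exact h i i.2 j j.2

/-- The table of a matrix. -/
noncomputable def tabM {l n : ℕ} (M : Matrix (Fin n) (Fin n) (Fl l)) : List (List ℕ) :=
  tab n (ent M)

theorem rd_tabM {l n : ℕ} (M : Matrix (Fin n) (Fin n) (Fl l)) (i j : ℕ) :
    rd (tabM M) i j = ent M i j := by
  unfold tabM
  by_cases h : i < n ∧ j < n
  · exact rd_tab _ h.1 h.2
  · rw [rd_tab' _ h]
    unfold ent
    rw [dif_neg h]

theorem tabM_inj {l n : ℕ} {M N : Matrix (Fin n) (Fin n) (Fl l)} (h : tabM M = tabM N) :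
    M = N := ent_ext fun i _ j _ => by rw [← rd_tabM, h, rd_tabM]

theorem mulT_tabM {l n : ℕ} (M N : Matrix (Fin n) (Fin n) (Fl l)) :
    mulT l n (tabM M) (tabM N) = tabM (M * N) := by
  unfold mulT
  conv_rhs => unfold tabM
  refine tab_congr fun i hi j hj => ?_
  have h1 : ent (M * N) i j = cod l (∑ k : Fin n, M ⟨i, hi⟩ k * N k ⟨j, hj⟩) := by
    unfold ent
    rw [dif_pos ⟨hi, hj⟩, Matrix.mul_apply]
  rw [h1]
  have h2 : ∑ k : Fin n, M ⟨i, hi⟩ k * N k ⟨j, hj⟩ =
      ∑ k ∈ Finset.range n, (if h : k < n then M ⟨i, hi⟩ ⟨k, h⟩ * N ⟨k, h⟩ ⟨j, hj⟩ else 0) := by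
    rw [Finset.sum_range]
    refine Finset.sum_congr rfl fun k _ => ?_
    rw [dif_pos k.2]
  rw [h2, ← xs_cod]
  refine xs_congr fun k hk => ?_
  rw [dif_pos hk, cod_mul, rd_tabM, rd_tabM, ← ent_fin M ⟨i, hi⟩ ⟨k, hk⟩,
    ← ent_fin N ⟨k, hk⟩ ⟨j, hj⟩]

theorem esize_tabM_le {l n : ℕ} (M : Matrix (Fin n) (Fin n) (Fl l)) :
    esize (tabM M) ≤ n * (2 * (n * (2 * eF l + 1)) + 1) := by
  have h1 : ∀ i, esize ((List.range n).map fun j => ent M i j) ≤ n * (2 * eF l + 1) := by
    intro i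
    have h2 : ∀ x ∈ (List.range n).map fun j => ent M i j, esize x ≤ eF l := by
      intro x hx
      obtain ⟨j, -, rfl⟩ := List.mem_map.1 hx
      exact esize_nat_le (ent_lt M i j)
    have h3 := esize_list_le h2
    rwa [List.length_map, List.length_range] at h3
  have h4 : ∀ x ∈ tabM M, esize x ≤ n * (2 * eF l + 1) := by
    intro x hx
    obtain ⟨i, -, rfl⟩ := List.mem_map.1 hx
    exact h1 i
  have h5 := esize_list_le h4
  have h6 : (tabM M).length = n := by
    unfold tabM tab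
    rw [List.length_map, List.length_range]
  rwa [h6] at h5

/-! ### Powers of tables -/

/-- One step of repeated squaring. -/
def psT (l n : ℕ) (p : ℕ × List (List ℕ) × List (List ℕ)) : ℕ × List (List ℕ) × List (List ℕ) :=
  (p.1 / 2, mulT l n p.2.1 p.2.1, if p.1 % 2 = 1 then mulT l n p.2.2 p.2.1 else p.2.2)

theorem psT_iterate {l n : ℕ} (M : Matrix (Fin n) (Fin n) (Fl l)) (k : ℕ) (j : ℕ) :
    ∃ B C : Matrix (Fin n) (Fin n) (Fl l),
      (psT l n)^[j] (k, tabM M, tabM (1 : Matrix (Fin n) (Fin n) (Fl l))) =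
        (k / 2 ^ j, tabM B, tabM C) ∧
        C * B ^ (k / 2 ^ j) = M ^ k := by
  induction j with
  | zero => exact ⟨M, 1, by simp, by simp⟩
  | succ j ih =>
    obtain ⟨B, C, h1, h2⟩ := ih
    rw [Function.iterate_succ_apply', h1]
    refine ⟨B * B, if k / 2 ^ j % 2 = 1 then C * B else C, ?_, ?_⟩
    · unfold psT
      simp only [Nat.div_div_eq_div_mul, mulT_tabM]
      rw [← pow_succ]
      split_ifs <;> rfl
    · have h5 : k / 2 ^ (j + 1) = k / 2 ^ j / 2 := by rw [Nat.div_div_eq_div_mul, pow_succ]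
      rw [h5, ← h2]
      generalize k / 2 ^ j = m
      split_ifs with h7
      · obtain ⟨r, rfl⟩ : ∃ r, m = 2 * r + 1 := ⟨m / 2, by omega⟩
        have h8 : (2 * r + 1) / 2 = r := by omega
        rw [h8, pow_succ', pow_mul, sq, Matrix.mul_assoc]
      · obtain ⟨r, rfl⟩ : ∃ r, m = 2 * r := ⟨m / 2, by omega⟩
        have h8 : 2 * r / 2 = r := by omega
        rw [h8, pow_mul, sq]

/-- The entries of the matrices `M a` are computable in polynomial time. -/
def MT (A : Set Word) (l n : α → ℕ) (M : ∀ a, Matrix (Fin (n a)) (Fin (n a)) (Fl (l a))) : Prop :=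
  PT A (fun a => tabM (M a))

/-- Standing assumption on the dimension. -/
structure NPar (A : Set Word) (n : α → ℕ) : Prop where
  pt : PT A n
  bd : PBd n

theorem NPar.comp {β : Type*} [Enc β] {n : α → ℕ} (h : NPar A n) {g : β → α} (hg : PT A g) :
    NPar A (fun b => n (g b)) :=
  ⟨h.pt.comp hg, PBd.comp (b := n) h.bd hg⟩

namespace MT

variable {l n : α → ℕ} {M N : ∀ a, Matrix (Fin (n a)) (Fin (n a)) (Fl (l a))}

theorem congr (hM : MT A l n M) (h : ∀ a, M a = N a) : MT A l n N := by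
  have : M = N := funext h
  rwa [this] at hM

theorem of_ent (hn : NPar A n)
    (h : PT A (fun p : α × ℕ × ℕ => ent (M p.1) p.2.1 p.2.2)) : MT A l n M :=
  PT.tab hn.pt hn.bd (f := fun a => ent (M a)) h

/-- Matrices given by functions of two natural numbers. -/
theorem of (hn : NPar A n) {F : ∀ a, ℕ → ℕ → Fl (l a)}
    (hF : FT A (fun p : α × ℕ × ℕ => l p.1) (fun p => F p.1 p.2.1 p.2.2)) :
    MT A l n (fun a => Matrix.of fun i j => F a i j) := by
  have h0 : PT A (fun p : α × ℕ × ℕ => cod (l p.1) (F p.1 p.2.1 p.2.2)) := hF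
  have h1 := PT.tab hn.pt hn.bd (f := fun a i j => cod (l a) (F a i j)) h0
  refine h1.congr fun a => ?_
  unfold tabM
  refine tab_congr fun i hi j hj => ?_
  beta_reduce
  unfold ent
  rw [dif_pos ⟨hi, hj⟩]
  rfl

/-- Reading of an entry. -/
theorem entry (hM : MT A l n M) {i j : α → ℕ} (hi : PT A i) (hj : PT A j) :
    PT A (fun a => ent (M a) (i a) (j a)) :=
  (PT.rd hM hi hj).congr fun a => rd_tabM _ _ _

theorem entryF (hM : MT A l n M) {i j : α → ℕ} (hi : PT A i) (hj : PT A j) :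
    FT A l (fun a => if h : i a < n a ∧ j a < n a then M a ⟨i a, h.1⟩ ⟨j a, h.2⟩ else 0) := by
  refine (entry hM hi hj).congr fun a => ?_
  unfold ent
  beta_reduce
  split_ifs
  · rfl
  · exact cod_zero.symm

theorem mul (hl : LPar A l) (hn : NPar A n) (hM : MT A l n M) (hN : MT A l n N) :
    MT A l n (fun a => M a * N a) :=
  (PT.mulT hl hn.pt hn.bd hM hN).congr fun a => mulT_tabM _ _

theorem one (hn : NPar A n) : MT A l n (fun _ => 1) := by
  have h1 : FT A (fun p : α × ℕ × ℕ => l p.1) (fun p => if p.2.1 = p.2.2 then 1 else 0) :=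
    FT.ite (PT.eqNat PT.snd'.fst PT.snd'.snd) FT.one FT.zero
  refine (of hn (F := fun a i j => if i = j then 1 else 0) h1).congr fun a => ?_
  ext i j
  rw [Matrix.one_apply]
  change (if (i : ℕ) = (j : ℕ) then (1 : Fl (l a)) else 0) = _
  by_cases h : i = j
  · rw [if_pos h, if_pos (congrArg _ h)]
  · rw [if_neg h, if_neg (fun h' => h (Fin.ext h'))]

theorem add (hn : NPar A n) (hM : MT A l n M) (hN : MT A l n N) :
    MT A l n (fun a => M a + N a) := by
  have h1 : PT A (fun p : α × ℕ × ℕ => H933.rd (tabM (M p.1)) p.2.1 p.2.2 ^^^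
      H933.rd (tabM (N p.1)) p.2.1 p.2.2) :=
    PT.natXor (PT.rd (PT.comp (g := fun a => tabM (M a)) hM PT.fst') PT.snd'.fst PT.snd'.snd)
      (PT.rd (PT.comp (g := fun a => tabM (N a)) hN PT.fst') PT.snd'.fst PT.snd'.snd)
  have h2 := PT.tab hn.pt hn.bd (f := fun a i j => H933.rd (tabM (M a)) i j ^^^
      H933.rd (tabM (N a)) i j) h1
  refine h2.congr fun a => ?_
  conv_rhs => unfold tabM
  refine tab_congr fun i hi j hj => ?_
  rw [rd_tabM, rd_tabM]
  beta_reduce
  unfold ent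
  rw [dif_pos ⟨hi, hj⟩, dif_pos ⟨hi, hj⟩, dif_pos ⟨hi, hj⟩, Matrix.add_apply, cod_add]

theorem pow (hl : LPar A l) (hn : NPar A n) (hM : MT A l n M) {k : α → ℕ} (hk : PT A k) :
    MT A l n (fun a => M a ^ k a) := by
  have hst : PT A (fun q : α × (ℕ × List (List ℕ) × List (List ℕ)) =>
      psT (l q.1) (n q.1) q.2) := by
    have hl' : LPar A (fun q : α × (ℕ × List (List ℕ) × List (List ℕ)) => l q.1) :=
      hl.comp PT.fst'
    have hn' : NPar A (fun q : α × (ℕ × List (List ℕ) × List (List ℕ)) => n q.1) :=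
      hn.comp PT.fst'
    unfold psT
    exact (PT.half PT.snd'.fst).pair
      ((PT.mulT hl' hn'.pt hn'.bd PT.snd'.snd.fst PT.snd'.snd.fst).pair
      (PT.ite (PT.odd PT.snd'.fst) (PT.mulT hl' hn'.pt hn'.bd PT.snd'.snd.snd PT.snd'.snd.fst)
        PT.snd'.snd.snd))
  have hB : PBd (fun a => 2 * esize (k a) +
      (2 * (n a * (2 * (n a * (2 * H933.eF (l a) + 1)) + 1)) +
        n a * (2 * (n a * (2 * H933.eF (l a) + 1)) + 1) + 1) + 1) := by
    have h1 := hk.pbd
    have h2 := hl.eFbd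
    have h3 := hn.bd
    fun_prop
  have h1 : PT A (fun a => (psT (l a) (n a))^[esize (k a)] (k a, tabM (M a),
      tabM (1 : Matrix (Fin (n a)) (Fin (n a)) (Fl (l a))))) := by
    refine PT.iterate_esize' (step := fun a => psT (l a) (n a)) hk
      (hk.pair (PT.pair hM (one (l := l) hn))) hst hB fun a j _ => ?_
    obtain ⟨B, C, h1, -⟩ := psT_iterate (M a) (k a) j
    rw [h1, esize_pair, esize_pair]
    have h3 := esize_nat_mono (Nat.div_le_self (k a) (2 ^ j))
    have h4 := esize_tabM_le B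
    have h5 := esize_tabM_le C
    omega
  refine h1.snd.snd.congr fun a => ?_
  obtain ⟨B, C, h1, h2⟩ := psT_iterate (M a) (k a) (esize (k a))
  rw [h1]
  have h3 : k a / 2 ^ esize (k a) = 0 := Nat.div_eq_of_lt (lt_two_pow_esize _)
  rw [h3, pow_zero, mul_one] at h2
  beta_reduce
  rw [← h2]

/-- Equality of matrices is decidable in polynomial time. -/
theorem eq [∀ a, Decidable (M a = N a)] (hn : NPar A n) (hM : MT A l n M) (hN : MT A l n N) :
    PT A (fun a => decide (M a = N a)) := by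
  have h0 : PT A (fun p : (α × ℕ) × ℕ => p.1.1) := PT.fst'.fst
  have hM' : PT A (fun p : (α × ℕ) × ℕ => tabM (M p.1.1)) :=
    PT.comp (g := fun a => tabM (M a)) hM h0
  have hN' : PT A (fun p : (α × ℕ) × ℕ => tabM (N p.1.1)) :=
    PT.comp (g := fun a => tabM (N a)) hN h0
  have h1 : PT A (fun p : (α × ℕ) × ℕ => decide (H933.rd (tabM (M p.1.1)) p.1.2 p.2 =
      H933.rd (tabM (N p.1.1)) p.1.2 p.2)) :=
    PT.eqNat (PT.rd hM' PT.fst'.snd PT.snd') (PT.rd hN' PT.fst'.snd PT.snd')
  have hn' : NPar A (fun p : α × ℕ => n p.1) := hn.comp PT.fst'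
  have h2 : PT A (fun p : α × ℕ => (List.range (n p.1)).all fun j =>
      decide (H933.rd (tabM (M p.1)) p.2 j = H933.rd (tabM (N p.1)) p.2 j)) :=
    PT.all (l := fun p : α × ℕ => List.range (n p.1)) (f := fun (p : α × ℕ) j =>
      decide (H933.rd (tabM (M p.1)) p.2 j = H933.rd (tabM (N p.1)) p.2 j))
      (PT.range hn'.pt hn'.bd) h1
  have h3 : PT A (fun a => (List.range (n a)).all fun i => (List.range (n a)).all fun j =>
      decide (H933.rd (tabM (M a)) i j = H933.rd (tabM (N a)) i j)) :=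
    PT.all (l := fun a => List.range (n a)) (f := fun a i => (List.range (n a)).all fun j =>
      decide (H933.rd (tabM (M a)) i j = H933.rd (tabM (N a)) i j))
      (PT.range hn.pt hn.bd) h2
  refine h3.congr fun a => ?_
  rw [Bool.eq_iff_iff]
  simp only [List.all_eq_true, List.mem_range, decide_eq_true_eq, rd_tabM]
  exact ⟨fun h => ent_ext h, fun h i _ j _ => by rw [h]⟩

/-- The exponent of the general linear group. -/
def gle (l n : ℕ) : ℕ := ((List.range n).map fun i => (2 ^ H933.eF l) ^ n - (2 ^ H933.eF l) ^ i).prod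

theorem inv_eq_pow {l n : ℕ} {M : Matrix (Fin n) (Fin n) (Fl l)} (h : IsUnit M) :
    M⁻¹ = M ^ (gle l n - 1) := by
  classical
  have h1 : Nat.card (Matrix.GeneralLinearGroup (Fin n) (Fl l)) = gle l n := by
    rw [Matrix.card_GL_field, card_Fl]
    unfold gle
    rw [← List.prod_ofFn]
    congr 1
    refine List.ext_getElem (by simp) fun i h1 h2 => ?_
    simp
  obtain ⟨u, rfl⟩ := h
  have h2 : u ^ gle l n = 1 := by rw [← h1]; exact pow_card_eq_one'
  have h3 : 0 < gle l n := by rw [← h1]; exact Nat.card_pos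
  have h4 : u⁻¹ = u ^ (gle l n - 1) := by
    rw [inv_eq_iff_mul_eq_one, ← pow_succ', Nat.sub_add_cancel h3, h2]
  rw [← Matrix.coe_units_inv, h4, Units.val_pow_eq_pow_val]

theorem zero (hn : NPar A n) : MT A l n (fun _ => 0) :=
  (of hn (F := fun _ _ _ => 0) FT.zero).congr fun _ => rfl

theorem ite {p : α → Prop} [DecidablePred p] (hp : PT A (fun a => decide (p a)))
    (hM : MT A l n M) (hN : MT A l n N) : MT A l n (fun a => if p a then M a else N a) :=
  (PT.ite hp hM hN).congr fun a => by beta_reduce; split_ifs <;> rfl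

theorem gle_pt (hl : LPar A l) (hn : NPar A n) : PT A (fun a => gle (l a) (n a)) := by
  have hl' : LPar A (fun p : α × ℕ => l p.1) := hl.comp PT.fst'
  have hn' : NPar A (fun p : α × ℕ => n p.1) := hn.comp PT.fst'
  have h1 : PT A (fun p : α × ℕ => 2 ^ H933.eF (l p.1)) :=
    PT.pow (PT.const 2) hl'.eF hl'.eFbd
  have h2 : PT A (fun p : α × ℕ => (2 ^ H933.eF (l p.1)) ^ n p.1) := PT.pow h1 hn'.pt hn'.bd
  have h3 : PT A (fun p : α × ℕ => (2 ^ H933.eF (l p.1)) ^ min p.2 (n p.1)) :=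
    PT.pow h1 (PT.min PT.snd' hn'.pt) (hn'.bd.mono fun p => min_le_right _ _)
  have h4 : PT A (fun a => (List.range (n a)).map fun i =>
      (2 ^ H933.eF (l a)) ^ n a - (2 ^ H933.eF (l a)) ^ min i (n a)) :=
    PT.map (l := fun a => List.range (n a)) (f := fun a i =>
      (2 ^ H933.eF (l a)) ^ n a - (2 ^ H933.eF (l a)) ^ min i (n a)) (PT.range hn.pt hn.bd)
      (PT.sub h2 h3)
  refine (PT.prod h4).congr fun a => ?_
  unfold gle
  congr 1
  refine List.map_congr_left fun i hi => ?_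
  rw [min_eq_left (List.mem_range.1 hi).le]

/-- Inverses of matrices are computable in polynomial time. -/
theorem inv (hl : LPar A l) (hn : NPar A n) (hM : MT A l n M) :
    MT A l n (fun a => (M a)⁻¹) := by
  classical
  have h1 : MT A l n (fun a => M a ^ (gle (l a) (n a) - 1)) :=
    pow hl hn hM (PT.sub (gle_pt hl hn) (PT.const 1))
  have h2 := eq hn (mul hl hn hM h1) (one hn)
  refine (ite h2 h1 (zero hn)).congr fun a => ?_
  by_cases h : IsUnit (M a)
  · rw [inv_eq_pow h, if_pos]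
    rw [← inv_eq_pow h]
    exact Matrix.mul_nonsing_inv _ ((Matrix.isUnit_iff_isUnit_det _).1 h)
  · rw [if_neg, Matrix.nonsing_inv_apply_not_isUnit _
      (fun h' => h ((Matrix.isUnit_iff_isUnit_det _).2 h'))]
    intro h'
    apply h
    exact (Matrix.isUnit_iff_isUnit_det _).2 (Matrix.isUnit_det_of_right_inverse h')

theorem transpose (hn : NPar A n) (hM : MT A l n M) : MT A l n (fun a => (M a).transpose) := by
  have h1 : PT A (fun p : α × ℕ × ℕ => H933.rd (tabM (M p.1)) p.2.2 p.2.1) :=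
    PT.rd (PT.comp (g := fun a => tabM (M a)) hM PT.fst') PT.snd'.snd PT.snd'.fst
  have h2 := PT.tab hn.pt hn.bd (f := fun a i j => H933.rd (tabM (M a)) j i) h1
  refine h2.congr fun a => ?_
  conv_rhs => unfold tabM
  refine tab_congr fun i hi j hj => ?_
  rw [rd_tabM]
  beta_reduce
  unfold ent
  rw [dif_pos ⟨hj, hi⟩, dif_pos ⟨hi, hj⟩, Matrix.transpose_apply]

theorem smul (hl : LPar A l) (hn : NPar A n) {c : ∀ a, Fl (l a)} (hc : FT A l c)
    (hM : MT A l n M) : MT A l n (fun a => c a • M a) := by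
  have hl' : LPar A (fun p : α × ℕ × ℕ => l p.1) := hl.comp PT.fst'
  have hc' : PT A (fun p : α × ℕ × ℕ => cod (l p.1) (c p.1)) :=
    PT.comp (g := fun a => cod (l a) (c a)) hc PT.fst'
  have h1 : PT A (fun p : α × ℕ × ℕ => H933.kmul (l p.1) (cod (l p.1) (c p.1))
      (H933.rd (tabM (M p.1)) p.2.1 p.2.2)) :=
    PT.kmul hl'.pt hl'.bd hc'
      (PT.rd (PT.comp (g := fun a => tabM (M a)) hM PT.fst') PT.snd'.fst PT.snd'.snd)
  have h2 := PT.tab hn.pt hn.bd (f := fun a i j => H933.kmul (l a) (cod (l a) (c a))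
    (H933.rd (tabM (M a)) i j)) h1
  refine h2.congr fun a => ?_
  conv_rhs => unfold tabM
  refine tab_congr fun i hi j hj => ?_
  rw [rd_tabM]
  beta_reduce
  unfold ent
  rw [dif_pos ⟨hi, hj⟩, dif_pos ⟨hi, hj⟩, Matrix.smul_apply, smul_eq_mul, cod_mul]

end MT

/-! ### Vectors -/

/-- The code of a coordinate; zero outside. -/
noncomputable def entV {l n : ℕ} (v : Fin n → Fl l) (i : ℕ) : ℕ :=
  if h : i < n then cod l (v ⟨i, h⟩) else 0

theorem entV_lt {l n : ℕ} (v : Fin n → Fl l) (i : ℕ) : entV v i < 2 ^ eF l := by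
  unfold entV
  split_ifs
  · exact cod_lt _
  · positivity

/-- The list of the codes of the coordinates. -/
noncomputable def tabV {l n : ℕ} (v : Fin n → Fl l) : List ℕ := (List.range n).map (entV v)

theorem getD_tabV {l n : ℕ} (v : Fin n → Fl l) (i : ℕ) : (tabV v).getD i 0 = entV v i := by
  unfold tabV
  by_cases hi : i < n
  · simp [List.getD_eq_getElem?_getD, hi]
  · simp [List.getD_eq_getElem?_getD, not_lt.1 hi, entV, hi]

/-- The coordinates of the vectors `v a` are computable in polynomial time. -/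
def VT (A : Set Word) (l n : α → ℕ) (v : ∀ a, Fin (n a) → Fl (l a)) : Prop :=
  PT A (fun a => tabV (v a))

namespace VT

variable {l n : α → ℕ} {M : ∀ a, Matrix (Fin (n a)) (Fin (n a)) (Fl (l a))}
  {v w : ∀ a, Fin (n a) → Fl (l a)}

theorem congr (hv : VT A l n v) (h : ∀ a, v a = w a) : VT A l n w := by
  have : v = w := funext h
  rwa [this] at hv

/-- Vectors given by functions of a natural number. -/
theorem of (hn : NPar A n) {F : ∀ a, ℕ → Fl (l a)}
    (hF : FT A (fun p : α × ℕ => l p.1) (fun p => F p.1 p.2)) :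
    VT A l n (fun a i => F a i) := by
  have h0 : PT A (fun p : α × ℕ => cod (l p.1) (F p.1 p.2)) := hF
  have h1 : PT A (fun a => (List.range (n a)).map fun i => cod (l a) (F a i)) :=
    PT.map (l := fun a => List.range (n a)) (f := fun a i => cod (l a) (F a i))
      (PT.range hn.pt hn.bd) h0
  refine h1.congr fun a => ?_
  unfold tabV
  refine List.map_congr_left fun i hi => ?_
  unfold entV
  rw [dif_pos (List.mem_range.1 hi)]

theorem entry (hv : VT A l n v) {i : α → ℕ} (hi : PT A i) : PT A (fun a => entV (v a) (i a)) :=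
  (PT.getD hv hi (PT.const 0)).congr fun a => getD_tabV _ _

theorem entryF (hv : VT A l n v) {i : α → ℕ} (hi : PT A i) :
    FT A l (fun a => if h : i a < n a then v a ⟨i a, h⟩ else 0) := by
  refine (entry hv hi).congr fun a => ?_
  unfold entV
  beta_reduce
  split_ifs
  · rfl
  · exact cod_zero.symm

theorem mulVec (hl : LPar A l) (hn : NPar A n) (hM : MT A l n M) (hv : VT A l n v) :
    VT A l n (fun a => (M a).mulVec (v a)) := by
  have h3 : PT A (fun p : (α × ℕ) × ℕ => p.1.1) := PT.fst'.fst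
  have hl' : LPar A (fun p : (α × ℕ) × ℕ => l p.1.1) := hl.comp h3
  have hM' : PT A (fun p : (α × ℕ) × ℕ => tabM (M p.1.1)) :=
    PT.comp (g := fun a => tabM (M a)) hM h3
  have hv' : PT A (fun p : (α × ℕ) × ℕ => tabV (v p.1.1)) :=
    PT.comp (g := fun a => tabV (v a)) hv h3
  have hn' : NPar A (fun p : α × ℕ => n p.1) := hn.comp PT.fst'
  have hb : PBd (fun a => H933.eF (l a)) := hl.eFbd
  have hb' : PBd (fun p : α × ℕ => H933.eF (l p.1)) :=
    PBd.comp (b := fun a => H933.eF (l a)) hb (PT.fst' (A := A))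
  have h4 : PT A (fun p : (α × ℕ) × ℕ => H933.kmul (l p.1.1) (H933.rd (tabM (M p.1.1)) p.1.2 p.2)
      ((tabV (v p.1.1)).getD p.2 0)) :=
    PT.kmul hl'.pt hl'.bd (PT.rd hM' PT.fst'.snd PT.snd') (PT.getD hv' PT.snd' (PT.const 0))
  have h5 : PT A (fun p : α × ℕ => H933.xs (n p.1) fun k =>
      H933.kmul (l p.1) (H933.rd (tabM (M p.1)) p.2 k) ((tabV (v p.1)).getD k 0)) := by
    refine PT.xs (f := fun (p : α × ℕ) k =>
      H933.kmul (l p.1) (H933.rd (tabM (M p.1)) p.2 k) ((tabV (v p.1)).getD k 0))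
      hn'.pt hn'.bd h4 hb' fun p k => ?_
    rw [rd_tabM]
    exact kmul_lt _ (ent_lt _ _ _)
  have h6 : PT A (fun a => (List.range (n a)).map fun i => H933.xs (n a) fun k =>
      H933.kmul (l a) (H933.rd (tabM (M a)) i k) ((tabV (v a)).getD k 0)) :=
    PT.map (l := fun a => List.range (n a)) (f := fun a i => H933.xs (n a) fun k =>
      H933.kmul (l a) (H933.rd (tabM (M a)) i k) ((tabV (v a)).getD k 0))
      (PT.range hn.pt hn.bd) h5
  refine h6.congr fun a => ?_
  unfold tabV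
  refine List.map_congr_left fun i hi => ?_
  have hi' := List.mem_range.1 hi
  have e1 : entV ((M a).mulVec (v a)) i =
      cod (l a) (∑ k ∈ Finset.range (n a), (if h : k < n a then M a ⟨i, hi'⟩ ⟨k, h⟩ * v a ⟨k, h⟩
        else 0)) := by
    unfold entV
    rw [dif_pos hi', Matrix.mulVec, dotProduct, Finset.sum_range]
    congr 1
    refine Finset.sum_congr rfl fun k _ => ?_
    rw [dif_pos k.2]
  rw [e1, ← xs_cod]
  refine xs_congr fun k hk => ?_
  have e2 := getD_tabV (v a) k
  unfold tabV at e2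
  rw [e2, rd_tabM, dif_pos hk, cod_mul]
  unfold ent entV
  rw [dif_pos ⟨hi', hk⟩, dif_pos hk]

/-- Solutions of linear systems. -/
theorem solve (hl : LPar A l) (hn : NPar A n) (hM : MT A l n M) (hv : VT A l n v)
    (hu : ∀ a, IsUnit (M a)) (hw : ∀ a, (M a).mulVec (w a) = v a) : VT A l n w := by
  refine (mulVec hl hn (MT.inv hl hn hM) hv).congr fun a => ?_
  rw [← hw a, Matrix.mulVec_mulVec, Matrix.nonsing_inv_mul _
    ((Matrix.isUnit_iff_isUnit_det _).1 (hu a)), Matrix.one_mulVec]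

end VT

namespace VT

variable {l n : α → ℕ} {M : ∀ a, Matrix (Fin (n a)) (Fin (n a)) (Fl (l a))}
  {v w : ∀ a, Fin (n a) → Fl (l a)}

/-- Solutions of linear systems with an injective matrix. -/
theorem solve_of_injective (hl : LPar A l) (hn : NPar A n) (hM : MT A l n M) (hv : VT A l n v)
    (hu : ∀ a, Function.Injective (M a).mulVec) (hw : ∀ a, (M a).mulVec (w a) = v a) :
    VT A l n w :=
  solve hl hn hM hv (fun a => Matrix.mulVec_injective_iff_isUnit.1 (hu a)) hw

/-- Vectors are computable iff their coordinates are. -/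
theorem of_entries (hn : NPar A n) (h : PT A (fun p : α × ℕ => entV (v p.1) p.2)) :
    VT A l n v :=
  PT.map (l := fun a => List.range (n a)) (f := fun a i => entV (v a) i) (PT.range hn.pt hn.bd) h

theorem of_entriesF (hn : NPar A n) (h : FT A (fun p : α × ℕ => l p.1)
    (fun p => if h : p.2 < n p.1 then v p.1 ⟨p.2, h⟩ else 0)) : VT A l n v := by
  refine of_entries hn (PT.congr h fun p => ?_)
  unfold entV
  beta_reduce
  split_ifs
  · rfl
  · exact cod_zero

theorem entriesF (hv : VT A l n v) : FT A (fun p : α × ℕ => l p.1)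
    (fun p => if h : p.2 < n p.1 then v p.1 ⟨p.2, h⟩ else 0) := by
  have h1 : VT A (fun p : α × ℕ => l p.1) (fun p => n p.1) (fun p => v p.1) :=
    PT.comp (g := fun a => tabV (v a)) hv PT.fst'
  exact entryF h1 PT.snd'

end VT

end Vale.Agent.P330.H933
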