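import Vale.Agent.P330.H933.PubI
import Vale.Agent.P330.H933.Etab

/-!
# Contents on the group `J`, and their words, in polynomial time
-/

namespace Vale.Agent.P330.H933

open Vale.Agent.Lib.PolyTime Vale.Agent.P330.H604 Vale.Agent.P330.H16

variable {α : Type} [Enc α] {A : Set Word} {l : α → ℕ} {J : α → Type}
  [∀ a, AddCommGroup (J a)] [∀ a, DistribMulAction (SL3 (l a)) (J a)] {N : JNum A l J}
  {β : Type} [Enc β] {u : β → α} {L : α → ℕ}

/-- Contents on `J`, from contents on the points. -/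
theorem CT.ofWT {psi : ∀ a, J a → V2 (N.κ a)}
    (hpsi : ∀ a n, n < 2 ^ N.κ a → psi a (N.val a n) = pt (N.κ a) n)
    {w : ∀ b, Ct (N.κ (u b)) (Fl (L (u b)))}
    (hw : WT A (fun b => N.κ (u b)) (fun b => L (u b)) w) :
    CT N L u (fun b x => w b (psi (u b) x)) := by
  have h0 : PT A (fun p : β × ℕ => cod (L (u p.1)) (w p.1 (pt (N.κ (u p.1)) p.2))) := hw
  refine h0.congr fun p => ?_
  beta_reduce
  rw [hpsi _ _ (Nat.mod_lt _ (by positivity)), pt_mod]

end Vale.Agent.P330.H933
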