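import Vale.Agent.P330.H933.Mat

/-!
# The table of the normalised subspace polynomials, in polynomial time
-/

namespace Vale.Agent.P330.H933

open Function
open Vale.Agent.Lib.PolyTime

/-- The value at `th ^ i` of the normalised subspace polynomial of the span of the `th ^ i`,
`i < j`. -/
noncomputable def sg (l : ℕ) : ℕ → ℕ → Fl l
  | 0, i => th l ^ i
  | j + 1, i => (sg l j i ^ 2 + sg l j i) / (sg l j (j + 1) ^ 2 + sg l j (j + 1))

/-- One step on rows of names. -/
def sgst (l j : ℕ) (row : List ℕ) : List ℕ :=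
  row.map fun c => kmul l (kmul l c c ^^^ c)
    (kinv l (kmul l (row.getD (j + 1) 0) (row.getD (j + 1) 0) ^^^ row.getD (j + 1) 0))

/-- The row `j` of names, of length `n`. -/
noncomputable def sgrow (l n j : ℕ) : List ℕ := (List.range n).map fun i => cod l (sg l j i)

theorem sgst_sgrow {l n j : ℕ} (h : j + 1 < n) : sgst l j (sgrow l n j) = sgrow l n (j + 1) := by
  have h1 : (sgrow l n j).getD (j + 1) 0 = cod l (sg l j (j + 1)) := by
    unfold sgrow
    simp [List.getD_eq_getElem?_getD, h]
  unfold sgst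
  rw [h1]
  unfold sgrow
  rw [List.map_map]
  refine List.map_congr_left fun i _ => ?_
  simp only [Function.comp]
  rw [← cod_mul, ← cod_mul, ← cod_add, ← cod_add, ← cod_inv, ← cod_mul]
  congr 1
  rw [sg, div_eq_mul_inv]
  ring

variable {α : Type*} [Enc α] {A : Set Word}

theorem esize_sgrow_le (l n j : ℕ) : esize (sgrow l n j) ≤ n * (2 * eF l + 1) := by
  have h2 : ∀ x ∈ sgrow l n j, esize x ≤ eF l := by
    intro x hx
    obtain ⟨i, -, rfl⟩ := List.mem_map.1 hx
    exact esize_nat_le (cod_lt _)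
  have h3 := esize_list_le h2
  unfold sgrow at h3 ⊢
  rwa [List.length_map, List.length_range] at h3

/-- Rows in polynomial time. -/
theorem PT.sgrow {l n j : α → ℕ} (hl : LPar A l) (hn : NPar A n) (hj : NPar A j)
    (h : ∀ a, j a < n a) : PT A (fun a => sgrow (l a) (n a) (j a)) := by
  have hl0 : LPar A (fun p : α × ℕ => l p.1) := hl.comp PT.fst'
  have h0 : PT A (fun a => H933.sgrow (l a) (n a) 0) := by
    refine PT.map (l := fun a => List.range (n a)) (f := fun a i => cod (l a) (sg (l a) 0 i))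
      (PT.range hn.pt hn.bd) ?_
    exact FT.pow hl0 (FT.th hl0) PT.snd'
  have hst : PT A (fun p : α × ℕ × List ℕ => sgst (l p.1) p.2.1 p.2.2) := by
    have hl' : LPar A (fun p : (α × ℕ × List ℕ) × ℕ => l p.1.1) := hl.comp PT.fst'.fst
    have hd : PT A (fun p : (α × ℕ × List ℕ) × ℕ => p.1.2.2.getD (p.1.2.1 + 1) 0) :=
      PT.getD PT.fst'.snd.snd (PT.add PT.fst'.snd.fst (PT.const 1)) (PT.const 0)
    refine PT.map (l := fun p : α × ℕ × List ℕ => p.2.2) (f := fun p c =>
      H933.kmul (l p.1) (H933.kmul (l p.1) c c ^^^ c)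
        (H933.kinv (l p.1) (H933.kmul (l p.1) (p.2.2.getD (p.2.1 + 1) 0)
          (p.2.2.getD (p.2.1 + 1) 0) ^^^ p.2.2.getD (p.2.1 + 1) 0))) PT.snd'.snd ?_
    exact PT.kmul hl'.pt hl'.bd
      (PT.natXor (PT.kmul hl'.pt hl'.bd PT.snd' PT.snd') PT.snd')
      (PT.kinv hl'.pt hl'.bd (PT.natXor (PT.kmul hl'.pt hl'.bd hd hd) hd))
  have key : ∀ a j', j' < n a → Nat.rec (motive := fun _ => List ℕ)
      (H933.sgrow (l a) (n a) 0) (fun i r => sgst (l a) i r) j' = H933.sgrow (l a) (n a) j' := by
    intro a j'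
    induction j' with
    | zero => intro _; rfl
    | succ j' ih =>
      intro hj'
      change sgst (l a) j' (Nat.rec (motive := fun _ => List ℕ)
        (H933.sgrow (l a) (n a) 0) (fun i r => sgst (l a) i r) j') = _
      rw [ih (by omega), sgst_sgrow hj']
  have hB : PBd (fun a => n a * (2 * H933.eF (l a) + 1)) := by
    have h1 := hl.eFbd
    have h2 := hn.bd
    fun_prop
  refine (PT.natRec (init := fun a => H933.sgrow (l a) (n a) 0)
    (step := fun a i r => sgst (l a) i r) hj.pt hj.bd h0 hst hB fun a j' hj' => ?_).congr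
    fun a => key a _ (h a)
  rw [key a j' (lt_of_le_of_lt hj' (h a))]
  exact esize_sgrow_le _ _ _

/-- The table of the normalised subspace polynomials in polynomial time. -/
theorem FT.sg {l j i : α → ℕ} (hl : LPar A l) (hj : NPar A j) (hi : NPar A i) :
    FT A l (fun a => sg (l a) (j a) (i a)) := by
  have hn : NPar A (fun a => j a + i a + 1) :=
    ⟨PT.add (PT.add hj.pt hi.pt) (PT.const 1), (hj.bd.add hi.bd).add (PBd.const 1)⟩
  have h1 := PT.sgrow hl hn hj fun a => by omega
  refine (PT.getD h1 hi.pt (PT.const 0)).congr fun a => ?_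
  unfold H933.sgrow
  have h2 : i a < j a + i a + 1 := by omega
  simp [List.getD_eq_getElem?_getD, h2]

end Vale.Agent.P330.H933
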